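import Mathlib

/-!
# Isotropy from reflection positivity in two directions: the algebraic core

`G nu z x = ∑ nu i / (z i + x)` is a (finite) Stieltjes function.  The inequality `core` relates its
values at `0`, `1/3`, `3`, `x0` and an arbitrary `x ≥ 0`; it is the only place where positivity is
used.
-/

open scoped BigOperators

namespace Vale.Agent.P153.Iso

/-- A finite Stieltjes function. -/
noncomputable def G {n : ℕ} (nu z : Fin n → ℝ) (x : ℝ) : ℝ := ∑ i, nu i / (z i + x)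

/-- The deficit weight. -/
noncomputable def W (x0 z : ℝ) : ℝ :=
  (z - 1) ^ 2 * (z + 1) * x0 / (z * (z + 3) * (z + 1 / 3) * (z + x0))

theorem W_nonneg {x0 z : ℝ} (hx : 0 < x0) (hz : 0 < z) : 0 ≤ W x0 z := by
  unfold W; positivity

/-- Pointwise inequality: the deficit. -/
theorem W_le {x0 z : ℝ} (hx : 0 < x0) (hz : 0 < z) :
    W x0 z ≤ 1 / (z + 0) - 4 * (1 / (z + 3)) + x0 * (1 / (z + x0)) - 4 / 3 * (1 / (z + 1 / 3))
      + 13 / 3 * (1 / (z + x0)) := by
  have key : 1 / (z + 0) - 4 * (1 / (z + 3)) + x0 * (1 / (z + x0)) - 4 / 3 * (1 / (z + 1 / 3))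
      + 13 / 3 * (1 / (z + x0)) - W x0 z
      = (112 / 9 * z + 16 / 3) / ((z + 3) * (z + 1 / 3) * (z + x0)) := by
    unfold W
    rw [add_zero]
    have h1 : z ≠ 0 := ne_of_gt hz
    have h2 : z + 3 ≠ 0 := by positivity
    have h3 : z + 1 / 3 ≠ 0 := by positivity
    have h4 : z + x0 ≠ 0 := by positivity
    field_simp
    ring
  have : 0 ≤ (112 / 9 * z + 16 / 3) / ((z + 3) * (z + 1 / 3) * (z + x0)) := by positivity
  linarith

/-- The other Cauchy-Schwarz weight. -/
noncomputable def V (x0 x z : ℝ) : ℝ :=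
  x0 * z * (z + 3) * (z + 1 / 3) / ((z + 1) * (z + x) ^ 2 * (1 + x) ^ 2 * (z + x0))

theorem V_nonneg {x0 x z : ℝ} (hx0 : 0 < x0) (hx : 0 ≤ x) (hz : 0 < z) : 0 ≤ V x0 x z := by
  unfold V; positivity

theorem V_le {x0 x z : ℝ} (hx0 : 0 < x0) (hx : 0 ≤ x) (hz : 0 < z) :
    V x0 x z ≤ x0 * (1 / (z + x0)) + 7 / 3 * (1 / (z + 0)) := by
  have h1 : V x0 x z ≤ x0 * z * (z + 3) * (z + 1 / 3) / ((z + 1) * z ^ 2 * 1 * (z + x0)) := by
    unfold V
    apply div_le_div_of_nonneg_left
    · positivity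
    · positivity
    · have a1 : z ^ 2 ≤ (z + x) ^ 2 := by nlinarith
      have a2 : (1 : ℝ) ≤ (1 + x) ^ 2 := by nlinarith
      have a3 : 0 < z + 1 := by positivity
      have a4 : 0 < z + x0 := by positivity
      apply mul_le_mul_of_nonneg_right _ a4.le
      apply mul_le_mul
      · exact mul_le_mul_of_nonneg_left a1 a3.le
      · exact a2
      · norm_num
      · positivity
  refine h1.trans ?_
  have key : x0 * (1 / (z + x0)) + 7 / 3 * (1 / (z + 0))
      - x0 * z * (z + 3) * (z + 1 / 3) / ((z + 1) * z ^ 2 * 1 * (z + x0))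
      = (7 / 3 * z ^ 2 + 7 / 3 * z + 4 / 3 * x0) / ((z + 1) * z * (z + x0)) := by
    rw [add_zero]
    have h1 : z ≠ 0 := ne_of_gt hz
    have h2 : z + 1 ≠ 0 := by positivity
    have h4 : z + x0 ≠ 0 := by positivity
    field_simp
    ring
  have : 0 ≤ (7 / 3 * z ^ 2 + 7 / 3 * z + 4 / 3 * x0) / ((z + 1) * z * (z + x0)) := by positivity
  linarith

theorem G_nonneg {n : ℕ} {nu z : Fin n → ℝ} (hnu : ∀ i, 0 ≤ nu i) (hz : ∀ i, 0 < z i) {x : ℝ}
    (hx : 0 ≤ x) : 0 ≤ G nu z x := by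
  unfold G
  exact Finset.sum_nonneg fun i _ => div_nonneg (hnu i) (by linarith [hz i])

/-- The deficit `D = ∑ nu W`. -/
noncomputable def D {n : ℕ} (nu z : Fin n → ℝ) (x0 : ℝ) : ℝ := ∑ i, nu i * W x0 (z i)

theorem D_nonneg {n : ℕ} {nu z : Fin n → ℝ} (hnu : ∀ i, 0 ≤ nu i) (hz : ∀ i, 0 < z i) {x0 : ℝ}
    (hx : 0 < x0) : 0 ≤ D nu z x0 :=
  Finset.sum_nonneg fun i _ => mul_nonneg (hnu i) (W_nonneg hx (hz i))

theorem D_le {n : ℕ} {nu z : Fin n → ℝ} (hnu : ∀ i, 0 ≤ nu i) (hz : ∀ i, 0 < z i) {x0 : ℝ}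
    (hx : 0 < x0) :
    D nu z x0 ≤ G nu z 0 - 4 * G nu z 3 + x0 * G nu z x0 - 4 / 3 * G nu z (1 / 3)
      + 13 / 3 * G nu z x0 := by
  have h : ∀ i, nu i * W x0 (z i) ≤ nu i / (z i + 0) - 4 * (nu i / (z i + 3))
      + x0 * (nu i / (z i + x0)) - 4 / 3 * (nu i / (z i + 1 / 3))
      + 13 / 3 * (nu i / (z i + x0)) := by
    intro i
    have := mul_le_mul_of_nonneg_left (W_le hx (hz i)) (hnu i)
    refine this.trans (le_of_eq ?_)
    ring
  calc D nu z x0 ≤ ∑ i, (nu i / (z i + 0) - 4 * (nu i / (z i + 3))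
      + x0 * (nu i / (z i + x0)) - 4 / 3 * (nu i / (z i + 1 / 3))
      + 13 / 3 * (nu i / (z i + x0))) := Finset.sum_le_sum fun i _ => h i
    _ = _ := by
      simp only [Finset.sum_add_distrib, Finset.sum_sub_distrib, ← Finset.mul_sum, G]

/-- **Core inequality.**  If the deficit is small then the Stieltjes function is close to
`H / (1 + x)`, `H = x0 * G x0`. -/
theorem core {n : ℕ} {nu z : Fin n → ℝ} (hnu : ∀ i, 0 ≤ nu i) (hz : ∀ i, 0 < z i) {x0 : ℝ}
    (hx0 : 0 < x0) {x : ℝ} (hx : 0 ≤ x) :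
    ∃ e : ℝ, 0 ≤ e ∧ e ≤ G nu z x0 ∧
      (G nu z x - x0 * G nu z x0 / (1 + x) - e) ^ 2
        ≤ D nu z x0 * (x0 * G nu z x0 + 7 / 3 * G nu z 0) := by
  refine ⟨∑ i, nu i * (z i / ((z i + x) * (z i + x0))), ?_, ?_, ?_⟩
  · exact Finset.sum_nonneg fun i _ => mul_nonneg (hnu i)
      (by have := hz i; positivity)
  · unfold G
    refine Finset.sum_le_sum fun i _ => ?_
    have hzi := hz i
    have h4 : 0 < z i + x0 := by positivity
    have h5 : 0 < z i + x := by positivity
    have : nu i * (z i / ((z i + x) * (z i + x0))) = nu i / (z i + x0) * (z i / (z i + x)) := by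
      field_simp
    rw [this]
    refine mul_le_of_le_one_right (div_nonneg (hnu i) h4.le) ?_
    rw [div_le_one h5]; linarith
  · have hid : G nu z x - x0 * G nu z x0 / (1 + x)
        - ∑ i, nu i * (z i / ((z i + x) * (z i + x0)))
        = ∑ i, nu i * (x0 * (1 - z i) / ((z i + x) * (1 + x) * (z i + x0))) := by
      unfold G
      rw [Finset.mul_sum, Finset.sum_div, ← Finset.sum_sub_distrib, ← Finset.sum_sub_distrib]
      refine Finset.sum_congr rfl fun i _ => ?_
      have hzi := hz i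
      have h1 : z i + x ≠ 0 := by positivity
      have h2 : z i + x0 ≠ 0 := by positivity
      have h3 : 1 + x ≠ 0 := by positivity
      field_simp
      ring
    rw [hid]
    have hcs := Finset.sum_sq_le_sum_mul_sum_of_sq_le_mul (Finset.univ : Finset (Fin n))
      (r := fun i => nu i * (x0 * (1 - z i) / ((z i + x) * (1 + x) * (z i + x0))))
      (f := fun i => nu i * W x0 (z i)) (g := fun i => nu i * V x0 x (z i))
      (fun i _ => mul_nonneg (hnu i) (W_nonneg hx0 (hz i)))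
      (fun i _ => mul_nonneg (hnu i) (V_nonneg hx0 hx (hz i)))
      (fun i _ => by
        have hzi := hz i
        unfold W V
        have h1 : z i + x ≠ 0 := by positivity
        have h2 : z i + x0 ≠ 0 := by positivity
        have h3 : 1 + x ≠ 0 := by positivity
        have h4 : z i ≠ 0 := by positivity
        have h5 : z i + 3 ≠ 0 := by positivity
        have h6 : z i + 1 / 3 ≠ 0 := by positivity
        have h7 : z i + 1 ≠ 0 := by positivity
        apply le_of_eq
        field_simp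
        ring)
    refine hcs.trans ?_
    refine mul_le_mul_of_nonneg_left ?_ (D_nonneg hnu hz hx0)
    calc ∑ i, nu i * V x0 x (z i)
        ≤ ∑ i, nu i * (x0 * (1 / (z i + x0)) + 7 / 3 * (1 / (z i + 0))) :=
          Finset.sum_le_sum fun i _ => mul_le_mul_of_nonneg_left (V_le hx0 hx (hz i)) (hnu i)
      _ = x0 * G nu z x0 + 7 / 3 * G nu z 0 := by
          unfold G
          rw [Finset.mul_sum, Finset.mul_sum, ← Finset.sum_add_distrib]
          refine Finset.sum_congr rfl fun i _ => ?_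
          ring

end Vale.Agent.P153.Iso
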