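import Mathlib

/-!
# The dyadic monotonicity argument
-/

namespace Vale.Agent.P153.Iso

/-- If `(a r - κ)^2 ≤ B (a r - a (2 r)) + η` for small `r` (every `η`) and `a` is bounded, then
`a r → κ`. -/
theorem dyadic {a : ℝ → ℝ} {κ B C ρ : ℝ} (hB : 0 < B) (hρ : 0 < ρ)
    (ha0 : ∀ r, 0 < r → r < ρ → 0 ≤ a r) (haC : ∀ r, 0 < r → r < ρ → a r ≤ C)
    (h : ∀ η, 0 < η → ∃ r0, 0 < r0 ∧ ∀ r, 0 < r → r < r0 →
      (a r - κ) ^ 2 ≤ B * (a r - a (2 * r)) + η) :
    ∀ ε, 0 < ε → ∃ r0, 0 < r0 ∧ ∀ r, 0 < r → r < r0 → |a r - κ| ≤ ε := by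
  intro ε hε
  -- choose `η`
  set η : ℝ := min (B * ε / 2) (ε ^ 2 / 8) with hη
  have hηpos : 0 < η := by rw [hη]; positivity
  have hη1 : η ≤ B * ε / 2 := min_le_left _ _
  have hη2 : η ≤ ε ^ 2 / 8 := min_le_right _ _
  obtain ⟨r1, hr1, hr⟩ := h η hηpos
  set r0 : ℝ := min r1 (ρ / 2) with hr0
  have hr0pos : 0 < r0 := by rw [hr0]; positivity
  have hr01 : r0 ≤ r1 := min_le_left _ _
  have hr0ρ : r0 ≤ ρ / 2 := min_le_right _ _
  -- `C ≥ 0`
  have hC : 0 ≤ C := (ha0 (ρ / 2) (by linarith) (by linarith)).trans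
    (haC (ρ / 2) (by linarith) (by linarith))
  set δ : ℝ := ε ^ 2 / (8 * B) with hδ
  have hδpos : 0 < δ := by rw [hδ]; positivity
  have hδB : B * δ = ε ^ 2 / 8 := by rw [hδ]; field_simp
  -- upper bound
  have hup : ∀ r, 0 < r → r < r0 → a r ≤ κ + ε := by
    intro r hrpos hrr0
    by_contra hcon
    push Not at hcon
    -- iterate downwards
    have step : ∀ n : ℕ, a r + n * δ ≤ a (r / 2 ^ n) := by
      intro n
      induction n with
      | zero => simp
      | succ n ih =>
        set u : ℝ := r / 2 ^ (n + 1) with hu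
        have hu2 : 2 * u = r / 2 ^ n := by rw [hu, pow_succ]; field_simp
        have hupos : 0 < u := by rw [hu]; positivity
        have hule : u ≤ r := by
          rw [hu]; apply div_le_self hrpos.le
          exact one_le_pow₀ (by norm_num)
        have hineq := hr u hupos (by linarith)
        rw [hu2] at hineq
        have hbase : κ + ε < a (r / 2 ^ n) := by
          have : 0 ≤ (n : ℝ) * δ := by positivity
          linarith
        -- first: a u ≥ a(2u) - η/B
        have h1 : a (r / 2 ^ n) - ε / 2 ≤ a u := by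
          have : B * (a (r / 2 ^ n) - a u) ≤ B * (ε / 2) := by nlinarith [sq_nonneg (a u - κ)]
          have := le_of_mul_le_mul_left this hB
          linarith
        have h2 : ε / 2 ≤ a u - κ := by linarith
        have h3 : ε ^ 2 / 4 ≤ (a u - κ) ^ 2 := by nlinarith
        have h4 : B * δ ≤ B * (a u - a (r / 2 ^ n)) := by rw [hδB]; linarith
        have h5 := le_of_mul_le_mul_left h4 hB
        push_cast
        linarith
    obtain ⟨n, hn⟩ := exists_nat_gt (C / δ)
    have h1 := step n
    have h2 : a (r / 2 ^ n) ≤ C := by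
      apply haC
      · positivity
      · have : r / 2 ^ n ≤ r := div_le_self hrpos.le (one_le_pow₀ (by norm_num))
        linarith
    have h3 : 0 ≤ a r := ha0 r hrpos (by linarith)
    have h4 : C < n * δ := by
      rw [div_lt_iff₀ hδpos] at hn; exact hn
    linarith
  -- lower bound
  obtain ⟨N, hN⟩ := exists_nat_gt (κ / δ)
  have hlow : ∀ r, 0 < r → r < r0 / 2 ^ (N + 1) → κ - ε ≤ a r := by
    intro r hrpos hrlt
    by_contra hcon
    push Not at hcon
    have step : ∀ n : ℕ, n ≤ N → a (2 ^ n * r) + n * δ ≤ a r := by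
      intro n
      induction n with
      | zero => intro _; simp
      | succ n ih =>
        intro hn
        have ih' := ih (by omega)
        set u : ℝ := 2 ^ n * r with hu
        have hupos : 0 < u := by rw [hu]; positivity
        have hult : u < r0 := by
          rw [lt_div_iff₀ (by positivity)] at hrlt
          have : (2:ℝ) ^ n ≤ 2 ^ (N + 1) := pow_le_pow_right₀ (by norm_num) (by omega)
          calc u = r * 2 ^ n := by rw [hu]; ring
            _ ≤ r * 2 ^ (N + 1) := by
              exact mul_le_mul_of_nonneg_left this hrpos.le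
            _ < r0 := hrlt
        have hineq := hr u hupos (by linarith)
        have hu2 : 2 ^ (n + 1) * r = 2 * u := by rw [hu, pow_succ]; ring
        rw [hu2]
        have h0 : 0 ≤ (n : ℝ) * δ := by positivity
        have h2 : ε ≤ κ - a u := by linarith
        have h3 : ε ^ 2 ≤ (a u - κ) ^ 2 := by nlinarith
        have h4 : B * δ ≤ B * (a u - a (2 * u)) := by
          rw [hδB]; nlinarith [sq_nonneg ε]
        have h5 := le_of_mul_le_mul_left h4 hB
        push_cast
        linarith
    have h1 := step N le_rfl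
    have hpos : 0 < (2:ℝ) ^ N * r := by positivity
    have hlt : (2:ℝ) ^ N * r < ρ := by
      rw [lt_div_iff₀ (by positivity)] at hrlt
      have : (2:ℝ) ^ N ≤ 2 ^ (N + 1) := pow_le_pow_right₀ (by norm_num) (by omega)
      calc (2:ℝ) ^ N * r = r * 2 ^ N := by ring
        _ ≤ r * 2 ^ (N + 1) := mul_le_mul_of_nonneg_left this hrpos.le
        _ < r0 := hrlt
        _ ≤ ρ := by linarith
    have h2 := ha0 _ hpos hlt
    have h3 : κ < N * δ := by
      rw [div_lt_iff₀ hδpos] at hN; exact hN
    linarith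
  refine ⟨r0 / 2 ^ (N + 1), by positivity, ?_⟩
  intro r hrpos hrlt
  have hlt : r < r0 := lt_of_lt_of_le hrlt
    (div_le_self hr0pos.le (one_le_pow₀ (by norm_num)))
  rw [abs_le]
  constructor
  · linarith [hlow r hrpos hrlt]
  · linarith [hup r hrpos hlt]

end Vale.Agent.P153.Iso
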