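import Mathlib
import Vale.Agent.P153.Iso.Core
import Vale.Agent.P153.Iso.Dyadic

/-!
# Isotropy of the two-point function (triangular lattice)

`F x y` is `|k|^2 Φ(k)` at `k = (x, y)`, where the rows of the lattice are parallel to the first
axis.  The hypotheses `Hyp` are the output of reflection positivity in the three lattice
directions; the conclusion `isotropy` is `F → κ` at `0`, in all directions.
-/

open Filter Topology
open scoped BigOperators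

namespace Vale.Agent.P153.Iso

/-- The hypotheses: `F (x, y) = |k|^2 Φ(k)`, `k = (x, y)`, near `0`. -/
structure Hyp (F : ℝ → ℝ → ℝ) (κ C ρ : ℝ) : Prop where
  rho_pos : 0 < ρ
  nonneg : ∀ x y, 0 < x ^ 2 + y ^ 2 → x ^ 2 + y ^ 2 < ρ ^ 2 → 0 ≤ F x y
  bdd : ∀ x y, 0 < x ^ 2 + y ^ 2 → x ^ 2 + y ^ 2 < ρ ^ 2 → F x y ≤ C
  /-- Lipschitz bound near the normal axis. -/
  lip : ∀ t x, 0 < t → t < ρ → |x| ≤ t / 2 → |F x t - F 0 t| ≤ C * |x| / t
  /-- Rotation by 60 degrees. -/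
  rot : ∀ x y, 0 < x ^ 2 + y ^ 2 → x ^ 2 + y ^ 2 < ρ ^ 2 →
    F (x / 2 - √3 / 2 * y) (√3 / 2 * x + y / 2) = F x y
  refl : ∀ x y, 0 < x ^ 2 + y ^ 2 → x ^ 2 + y ^ 2 < ρ ^ 2 → F x (-y) = F x y
  /-- The limit along the normal axis. -/
  axis : Tendsto (fun t => F 0 t) (𝓝[>] 0) (𝓝 κ)
  /-- For every small `r` the function `t ↦ F r t / (r^2+t^2)` is, up to a bounded error and
  on every finite set of points, a Stieltjes function of `t^2`. -/
  st : ∀ r, 0 < r → r < ρ → ∀ T : Finset ℝ, (∀ t ∈ T, 0 ≤ t ∧ t < ρ) →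
    ∃ (n : ℕ) (nu s : Fin n → ℝ), (∀ i, 0 ≤ nu i) ∧ (∀ i, 0 < s i) ∧
      ∀ t ∈ T, |F r t / (r ^ 2 + t ^ 2) - ∑ i, nu i / (s i + t ^ 2)| ≤ C

variable {F : ℝ → ℝ → ℝ} {κ C ρ : ℝ}

theorem Hyp.C_nonneg (h : Hyp F κ C ρ) : 0 ≤ C := by
  have hρ := h.rho_pos
  have h1 := h.nonneg 0 (ρ / 2) (by positivity) (by nlinarith)
  have h2 := h.bdd 0 (ρ / 2) (by positivity) (by nlinarith)
  linarith

theorem Hyp.kappa_nonneg (h : Hyp F κ C ρ) : 0 ≤ κ := by
  refine ge_of_tendsto h.axis ?_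
  have hρ := h.rho_pos
  filter_upwards [Ioo_mem_nhdsGT hρ] with t ht
  exact h.nonneg 0 t (by nlinarith [ht.1]) (by nlinarith [ht.1, ht.2])

theorem Hyp.kappa_le (h : Hyp F κ C ρ) : κ ≤ C := by
  refine le_of_tendsto h.axis ?_
  have hρ := h.rho_pos
  filter_upwards [Ioo_mem_nhdsGT hρ] with t ht
  exact h.bdd 0 t (by nlinarith [ht.1]) (by nlinarith [ht.1, ht.2])

/-- The axis limit in `ε`-form. -/
theorem Hyp.axis' (h : Hyp F κ C ρ) {ε : ℝ} (hε : 0 < ε) :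
    ∃ δ, 0 < δ ∧ δ ≤ ρ ∧ ∀ t, 0 < t → t < δ → |F 0 t - κ| ≤ ε := by
  have h1 := (Metric.tendsto_nhds.1 h.axis) ε hε
  rw [eventually_nhdsWithin_iff, Metric.eventually_nhds_iff] at h1
  obtain ⟨δ, hδ, hd⟩ := h1
  refine ⟨min δ ρ, lt_min hδ h.rho_pos, min_le_right _ _, fun t ht0 ht => ?_⟩
  have := hd (y := t) (by rw [Real.dist_eq, sub_zero, abs_of_pos ht0]; exact lt_of_lt_of_le ht (min_le_left _ _)) ht0
  rw [Real.dist_eq] at this
  exact this.le

theorem rot30 (h : Hyp F κ C ρ) {r : ℝ} (hr : 0 < r) (hr' : 2 * r < ρ) :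
    F r (r * √(1 / 3)) = F 0 (2 * r * √(1 / 3)) := by
  have h3 : √(1 / 3 : ℝ) = √3 / 3 := by
    rw [Real.sqrt_div (by norm_num), Real.sqrt_one]
    have : √(3:ℝ) * √3 = 3 := Real.mul_self_sqrt (by norm_num)
    have h0 : √(3:ℝ) ≠ 0 := by positivity
    field_simp
    linarith [this]
  have h33 : √(3:ℝ) ^ 2 = 3 := Real.sq_sqrt (by norm_num)
  rw [h3]
  have := h.rot r (r * (√3 / 3)) (by positivity) (by nlinarith)
  rw [← this]
  congr 1
  · ring_nf; rw [h33]; ring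
  · ring

theorem rot60 (h : Hyp F κ C ρ) {r : ℝ} (hr : 0 < r) (hr' : 2 * r < ρ) :
    F r (r * √3) = F (2 * r) 0 := by
  have := h.rot (2 * r) 0 (by positivity) (by nlinarith)
  rw [← this]
  congr 1
  · ring
  · ring

/-- Elementary choice of `√x0`. -/
theorem choose_q {C κ ε : ℝ} (hC : 0 ≤ C) (hκ : 0 ≤ κ) (hε : 0 < ε) :
    ∃ q : ℝ, 2 ≤ q ∧ C / q ≤ ε ∧ (κ + 3) / (1 + q ^ 2) ≤ ε := by
  have p1 : 0 ≤ C / ε := by positivity
  have p2 : 0 ≤ (κ + 3) / ε := by positivity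
  refine ⟨2 + C / ε + (κ + 3) / ε, by linarith, ?_, ?_⟩
  · rw [div_le_iff₀ (by positivity)]
    have h1 : ε * (C / ε) = C := by field_simp
    have h3 : 0 ≤ ε * ((κ + 3) / ε) := by positivity
    nlinarith
  · rw [div_le_iff₀ (by positivity)]
    have h2 : ε * ((κ + 3) / ε) = κ + 3 := by field_simp
    set Q := 2 + C / ε + (κ + 3) / ε with hQ
    have hQ1 : 1 ≤ Q := by linarith
    have hQ2 : (κ + 3) / ε ≤ Q := by linarith
    have hQ3 : Q ≤ 1 + Q ^ 2 := by nlinarith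
    calc κ + 3 = ε * ((κ + 3) / ε) := h2.symm
      _ ≤ ε * (1 + Q ^ 2) := mul_le_mul_of_nonneg_left (hQ2.trans hQ3) hε.le

/-- The deterministic estimate behind `main_ineq`. -/
theorem quad_est {n : ℕ} {nu z : Fin n → ℝ} (hnu : ∀ i, 0 ≤ nu i) (hz : ∀ i, 0 < z i)
    {κ C ε q x a a2 a13 aq ax : ℝ} (hC : 0 ≤ C) (hκ : 0 ≤ κ) (hε : 0 < ε) (hε1 : ε ≤ 1)
    (hq : 0 < q)
    (hqκ : (κ + 3) / (1 + q ^ 2) ≤ ε) (hx : 0 ≤ x) (hx3 : x ≤ 1 / 3) (haC : a ≤ C)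
    (e0 : |a - G nu z 0| ≤ ε / 5) (e13 : |a13 / (1 + 1 / 3) - G nu z (1 / 3)| ≤ ε / 5)
    (e3 : |a2 / (1 + 3) - G nu z 3| ≤ ε / 5)
    (eq0 : (1 + q ^ 2) * |aq / (1 + q ^ 2) - G nu z (q ^ 2)| ≤ ε)
    (ex : |ax / (1 + x) - G nu z x| ≤ ε / 5)
    (k13 : |a13 - κ| ≤ ε) (kq : |aq - κ| ≤ 2 * ε) :
    (ax - κ) ^ 2 ≤ 4 * (κ + 7 / 3 * (C + 1) + 7) * (a - a2)
      + (44 * (κ + 7 / 3 * (C + 1) + 7) + 200) * ε := by
  set B0 : ℝ := κ + 7 / 3 * (C + 1) + 7 with hB0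
  have hB0pos : 0 < B0 := by rw [hB0]; positivity
  obtain ⟨e, he0, he1, hcore⟩ := core hnu hz (x0 := q ^ 2) (by positivity) hx
  have hD := D_le hnu hz (x0 := q ^ 2) (by positivity)
  have hD0 := D_nonneg hnu hz (x0 := q ^ 2) (by positivity)
  have hgq0 : 0 ≤ G nu z (q ^ 2) := G_nonneg hnu hz (by positivity)
  have hg00 : 0 ≤ G nu z 0 := G_nonneg hnu hz le_rfl
  generalize G nu z 0 = g0 at *
  generalize G nu z (1 / 3) = g13 at *
  generalize G nu z 3 = g3 at *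
  generalize G nu z (q ^ 2) = gq at *
  generalize G nu z x = gx at *
  generalize D nu z (q ^ 2) = Dv at *
  have hqq : 0 < 1 + q ^ 2 := by positivity
  have k1 : |(1 + q ^ 2) * gq - κ| ≤ 3 * ε := by
    have h1 : |aq - (1 + q ^ 2) * gq| ≤ ε := by
      have : aq - (1 + q ^ 2) * gq = (1 + q ^ 2) * (aq / (1 + q ^ 2) - gq) := by
        field_simp
      rw [this, abs_mul, abs_of_pos hqq]
      exact eq0
    rw [abs_le] at h1 kq ⊢
    constructor <;> linarith [h1.1, h1.2, kq.1, kq.2]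
  have k2 : gq ≤ ε := by
    have h1 : (1 + q ^ 2) * gq ≤ κ + 3 := by
      rw [abs_le] at k1; linarith [k1.2]
    have h2 : gq ≤ (κ + 3) / (1 + q ^ 2) := by
      rw [le_div_iff₀ hqq]; linarith
    exact h2.trans hqκ
  have k3 : |q ^ 2 * gq - κ| ≤ 4 * ε := by
    rw [abs_le] at k1 ⊢
    constructor <;> linarith [k1.1, k1.2]
  have hDle : Dv ≤ a - a2 + 11 * ε := by
    rw [abs_le] at e0 e13 e3 k13 k3
    have t3 : a2 / (1 + 3) = a2 / 4 := by norm_num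
    have t13 : a13 / (1 + 1 / 3) = 3 / 4 * a13 := by
      field_simp; ring
    rw [t3] at e3
    rw [t13] at e13
    linarith [e0.1, e0.2, e13.1, e13.2, e3.1, e3.2, k13.1, k13.2, k3.1, k3.2]
  have hB : q ^ 2 * gq + 7 / 3 * g0 ≤ B0 := by
    rw [abs_le] at k3 e0
    rw [hB0]
    linarith [k3.2, e0.1]
  have hcore' : (gx - q ^ 2 * gq / (1 + x) - e) ^ 2 ≤ B0 * Dv :=
    hcore.trans (by rw [mul_comm]; exact mul_le_mul_of_nonneg_right hB hD0)
  clear hcore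
  have hx1pos : 0 < 1 + x := by positivity
  have hfin : |ax - κ - (1 + x) * (gx - q ^ 2 * gq / (1 + x) - e)| ≤ 6 * ε := by
    have h1 : ax - κ - (1 + x) * (gx - q ^ 2 * gq / (1 + x) - e)
        = (1 + x) * (ax / (1 + x) - gx) + (q ^ 2 * gq - κ) + (1 + x) * e := by
      field_simp; ring
    rw [h1]
    have h2 : |(1 + x) * (ax / (1 + x) - gx)| ≤ (1 + x) * (ε / 5) := by
      rw [abs_mul, abs_of_pos hx1pos]
      exact mul_le_mul_of_nonneg_left ex hx1pos.le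
    have h3 : |(1 + x) * e| ≤ (1 + x) * ε := by
      rw [abs_mul, abs_of_pos hx1pos, abs_of_nonneg he0]
      exact mul_le_mul_of_nonneg_left (he1.trans k2) hx1pos.le
    have h4 : (1 + x) * (ε / 5) + (1 + x) * ε ≤ 2 * ε := by nlinarith only [hx, hx3, hε]
    calc |(1 + x) * (ax / (1 + x) - gx) + (q ^ 2 * gq - κ) + (1 + x) * e|
        ≤ |(1 + x) * (ax / (1 + x) - gx)| + |q ^ 2 * gq - κ| + |(1 + x) * e| :=
          abs_add_three _ _ _
      _ ≤ 6 * ε := by linarith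
  generalize gx - q ^ 2 * gq / (1 + x) - e = R at *
  have hsq : (ax - κ) ^ 2 ≤ 2 * ((1 + x) * R) ^ 2 + 2 * (6 * ε) ^ 2 := by
    have h1 : (ax - κ - (1 + x) * R) ^ 2 ≤ (6 * ε) ^ 2 := by
      rw [← sq_abs (ax - κ - (1 + x) * R)]
      exact pow_le_pow_left₀ (abs_nonneg _) hfin 2
    have h2 : (ax - κ) ^ 2 ≤ 2 * ((1 + x) * R) ^ 2 + 2 * (ax - κ - (1 + x) * R) ^ 2 := by
      have : 0 ≤ (ax - κ - 2 * ((1 + x) * R)) ^ 2 := sq_nonneg _
      linarith [this, sq_nonneg (ax - κ)]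
    linarith
  have h5 : ((1 + x) * R) ^ 2 ≤ 2 * (B0 * Dv) := by
    have h6 : (1 + x) ^ 2 ≤ 2 := by nlinarith only [hx, hx3]
    calc ((1 + x) * R) ^ 2 = (1 + x) ^ 2 * R ^ 2 := by ring
      _ ≤ 2 * R ^ 2 := mul_le_mul_of_nonneg_right h6 (sq_nonneg _)
      _ ≤ 2 * (B0 * Dv) := by linarith
  have h7 : B0 * Dv ≤ B0 * (a - a2 + 11 * ε) := mul_le_mul_of_nonneg_left hDle hB0pos.le
  have h8 : ε * ε ≤ ε := by nlinarith only [hε, hε1]
  have h9 : 4 * (B0 * Dv) ≤ 4 * B0 * (a - a2) + 44 * B0 * ε := by linarith only [h7]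
  have h10 : 2 * (6 * ε) ^ 2 ≤ 200 * ε := by linarith only [h8, hε]
  linarith only [hsq, h5, h9, h10]

/-- The five approximations. -/
theorem five (h : Hyp F κ C ρ) {r q x : ℝ} (hr : 0 < r) (h2r : 2 * r < ρ) (hq : 2 ≤ q)
    (hrq : r * q < ρ) (hx : 0 ≤ x) (hx3 : x ≤ 1 / 3) :
    ∃ (n : ℕ) (nu z : Fin n → ℝ), (∀ i, 0 ≤ nu i) ∧ (∀ i, 0 < z i) ∧
      |F r 0 - G nu z 0| ≤ C * r ^ 2 ∧
      |F 0 (2 * r * √(1 / 3)) / (1 + 1 / 3) - G nu z (1 / 3)| ≤ C * r ^ 2 ∧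
      |F (2 * r) 0 / (1 + 3) - G nu z 3| ≤ C * r ^ 2 ∧
      |F r (r * q) / (1 + q ^ 2) - G nu z (q ^ 2)| ≤ C * r ^ 2 ∧
      |F r (r * √x) / (1 + x) - G nu z x| ≤ C * r ^ 2 := by
  have hx1 : √x ≤ 1 := by rw [Real.sqrt_le_one]; linarith
  have hsx : √x ^ 2 = x := Real.sq_sqrt hx
  have hs3 : √(3:ℝ) ^ 2 = 3 := Real.sq_sqrt (by norm_num)
  have hs13 : √(1 / 3 : ℝ) ^ 2 = 1 / 3 := Real.sq_sqrt (by norm_num)
  have hs3' : √(3:ℝ) ≤ 2 := by
    rw [Real.sqrt_le_left (by norm_num)]; norm_num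
  have hs13' : √(1 / 3 : ℝ) ≤ 1 := by rw [Real.sqrt_le_one]; norm_num
  have hq0 : 0 < q := by linarith
  obtain ⟨n, nu, s, hnu, hs, hst⟩ := h.st r hr (by linarith)
    {0, r * √(1 / 3), r * √3, r * q, r * √x} (by
      intro t ht
      simp only [Finset.mem_insert, Finset.mem_singleton] at ht
      rcases ht with rfl | rfl | rfl | rfl | rfl
      · exact ⟨le_rfl, h.rho_pos⟩
      · exact ⟨by positivity, by nlinarith⟩
      · exact ⟨by positivity, by nlinarith⟩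
      · exact ⟨by positivity, hrq⟩
      · exact ⟨by positivity, by nlinarith⟩)
  have hG : ∀ w : ℝ, G nu (fun i => s i / r ^ 2) (w ^ 2) =
      r ^ 2 * ∑ i, nu i / (s i + (r * w) ^ 2) := by
    intro w
    unfold G
    rw [Finset.mul_sum]
    refine Finset.sum_congr rfl fun i _ => ?_
    have h1 : s i + (r * w) ^ 2 ≠ 0 := by have := hs i; positivity
    have h2 : s i / r ^ 2 + w ^ 2 ≠ 0 := by have := hs i; positivity
    simp only
    field_simp
  have hq' : ∀ w : ℝ, r * w ∈ ({0, r * √(1 / 3), r * √3, r * q, r * √x} : Finset ℝ) →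
      |F r (r * w) / (1 + w ^ 2) - G nu (fun i => s i / r ^ 2) (w ^ 2)| ≤ C * r ^ 2 := by
    intro w hmem
    have h1 := hst _ hmem
    rw [hG w]
    have h2 : F r (r * w) / (1 + w ^ 2) = r ^ 2 * (F r (r * w) / (r ^ 2 + (r * w) ^ 2)) := by
      have : 1 + w ^ 2 ≠ 0 := by positivity
      have : r ^ 2 + (r * w) ^ 2 ≠ 0 := by positivity
      field_simp
    rw [h2, ← mul_sub, abs_mul, abs_of_pos (by positivity : (0:ℝ) < r ^ 2), mul_comm C]
    exact mul_le_mul_of_nonneg_left h1 (by positivity)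
  have e0 := hq' 0 (by simp)
  have e13 := hq' (√(1 / 3)) (by simp)
  have e3 := hq' (√3) (by simp)
  have eq0 := hq' q (by simp)
  have ex := hq' (√x) (by simp)
  rw [hs13, rot30 h hr h2r] at e13
  rw [hs3, rot60 h hr h2r] at e3
  rw [hsx] at ex
  rw [mul_zero, zero_pow (by norm_num), add_zero, div_one] at e0
  exact ⟨n, nu, _, hnu, fun i => div_pos (hs i) (by positivity), e0, e13, e3, eq0, ex⟩

/-- **Main inequality.** -/
theorem main_ineq (h : Hyp F κ C ρ) :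
    ∃ B, 0 < B ∧ ∀ η, 0 < η → ∃ r0, 0 < r0 ∧ ∀ r, 0 < r → r < r0 → ∀ x, 0 ≤ x → x ≤ 1 / 3 →
      (F r (r * √x) - κ) ^ 2 ≤ B * (F r 0 - F (2 * r) 0) + η := by
  have hC := h.C_nonneg
  have hκ := h.kappa_nonneg
  have hρ := h.rho_pos
  set B0 : ℝ := κ + 7 / 3 * (C + 1) + 7 with hB0
  have hB0pos : 0 < B0 := by rw [hB0]; positivity
  refine ⟨4 * B0, by positivity, ?_⟩
  intro η hη
  obtain ⟨ε, hε, hε1, hεη⟩ : ∃ ε : ℝ, 0 < ε ∧ ε ≤ 1 ∧ (44 * B0 + 200) * ε ≤ η := by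
    refine ⟨min 1 (η / (44 * B0 + 200)), by positivity, min_le_left _ _, ?_⟩
    have h1 : min 1 (η / (44 * B0 + 200)) ≤ η / (44 * B0 + 200) := min_le_right _ _
    calc (44 * B0 + 200) * min 1 (η / (44 * B0 + 200))
        ≤ (44 * B0 + 200) * (η / (44 * B0 + 200)) := mul_le_mul_of_nonneg_left h1 (by positivity)
      _ = η := by field_simp
  obtain ⟨q, hq2, hqC, hqκ⟩ := choose_q hC hκ hε
  have hq0 : 0 < q := by linarith
  obtain ⟨δ, hδ, hδρ, hax⟩ := h.axis' hε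
  set r0 : ℝ := min (δ / (2 * q)) (min 1 (ε / ((1 + q ^ 2) * (C + 1)))) with hr0
  refine ⟨r0, by positivity, ?_⟩
  intro r hr hrr0 x hx hx3
  have hr1 : r < δ / (2 * q) := lt_of_lt_of_le hrr0 (min_le_left _ _)
  have hr2 : r < 1 := lt_of_lt_of_le hrr0 ((min_le_right _ _).trans (min_le_left _ _))
  have hr3 : r < ε / ((1 + q ^ 2) * (C + 1)) :=
    lt_of_lt_of_le hrr0 ((min_le_right _ _).trans (min_le_right _ _))
  have hrq : 2 * (r * q) < δ := by
    rw [lt_div_iff₀ (by positivity)] at hr1; linarith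
  have hrδ : 4 * r < δ := by nlinarith
  have hCr : (1 + q ^ 2) * (C * r ^ 2) ≤ ε := by
    rw [lt_div_iff₀ (by positivity)] at hr3
    have h0 : r ^ 2 ≤ r := by nlinarith
    have h1 : C * r ^ 2 ≤ (C + 1) * r := by
      calc C * r ^ 2 ≤ C * r := mul_le_mul_of_nonneg_left h0 hC
        _ ≤ (C + 1) * r := by linarith
    have h2 : (1 + q ^ 2) * (C * r ^ 2) ≤ (1 + q ^ 2) * ((C + 1) * r) :=
      mul_le_mul_of_nonneg_left h1 (by positivity)
    linarith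
  have hCr1 : C * r ^ 2 ≤ ε / 5 := by
    have : 5 * (C * r ^ 2) ≤ (1 + q ^ 2) * (C * r ^ 2) :=
      mul_le_mul_of_nonneg_right (by nlinarith) (by positivity)
    linarith
  obtain ⟨n, nu, z, hnu, hz, e0, e13, e3, eq0, ex⟩ :=
    five h hr (q := q) (x := x) (by linarith) hq2 (by linarith) hx hx3
  have hs13' : √(1 / 3 : ℝ) ≤ 1 := by rw [Real.sqrt_le_one]; norm_num
  have a13 : |F 0 (2 * r * √(1 / 3)) - κ| ≤ ε := by
    apply hax
    · positivity
    · nlinarith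
  have aq : |F 0 (r * q) - κ| ≤ ε := by
    apply hax
    · positivity
    · linarith
  have lq : |F r (r * q) - F 0 (r * q)| ≤ ε := by
    have h1 := h.lip (r * q) r (by positivity) (by linarith) (by
      rw [abs_of_pos hr]; nlinarith)
    refine h1.trans ?_
    rw [abs_of_pos hr]
    have : C * r / (r * q) = C / q := by field_simp
    rw [this]; exact hqC
  have kq : |F r (r * q) - κ| ≤ 2 * ε := by
    rw [abs_le] at *
    constructor <;> linarith [lq.1, lq.2, aq.1, aq.2]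
  have hFxC : F r 0 ≤ C := h.bdd r 0 (by positivity) (by nlinarith)
  have := quad_est hnu hz hC hκ hε hε1 hq0 hqκ hx hx3 hFxC (e0.trans hCr1) (e13.trans hCr1)
    (e3.trans hCr1) ((mul_le_mul_of_nonneg_left eq0 (by positivity)).trans hCr)
    (ex.trans hCr1) a13 kq
  rw [← hB0] at this
  linarith

/-- The value on the ray `θ = 0`. -/
theorem ray (h : Hyp F κ C ρ) :
    ∀ ε, 0 < ε → ∃ r0, 0 < r0 ∧ ∀ r, 0 < r → r < r0 → |F r 0 - κ| ≤ ε := by
  obtain ⟨B, hB, hmain⟩ := main_ineq h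
  have hρ := h.rho_pos
  refine dyadic (a := fun r => F r 0) (B := B) (C := C) hB hρ ?_ ?_ ?_
  · intro r h1 h2
    exact h.nonneg r 0 (by positivity) (by nlinarith)
  · intro r h1 h2
    exact h.bdd r 0 (by positivity) (by nlinarith)
  · intro η hη
    obtain ⟨r0, hr0, hr⟩ := hmain η hη
    refine ⟨r0, hr0, fun r h1 h2 => ?_⟩
    have := hr r h1 h2 0 le_rfl (by norm_num)
    simpa using this

/-- The sector `0 ≤ θ ≤ 30°`. -/
theorem sector (h : Hyp F κ C ρ) :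
    ∀ ε, 0 < ε → ∃ r0, 0 < r0 ∧ ∀ x y, 0 < x → 0 ≤ y → 3 * y ^ 2 ≤ x ^ 2 → x < r0 →
      |F x y - κ| ≤ ε := by
  obtain ⟨B, hB, hmain⟩ := main_ineq h
  intro ε hε
  obtain ⟨r1, hr1, h1⟩ := hmain (ε ^ 2 / 2) (by positivity)
  obtain ⟨r2, hr2, h2⟩ := ray h (ε ^ 2 / (4 * B)) (by positivity)
  refine ⟨min r1 (r2 / 2), by positivity, ?_⟩
  intro x y hx hy hxy hlt
  have hx1 : x < r1 := lt_of_lt_of_le hlt (min_le_left _ _)
  have hx2 : x < r2 / 2 := lt_of_lt_of_le hlt (min_le_right _ _)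
  have e1 := h2 x hx (by linarith)
  have e2 := h2 (2 * x) (by positivity) (by linarith)
  have hw : 0 ≤ (y / x) ^ 2 := by positivity
  have hw3 : (y / x) ^ 2 ≤ 1 / 3 := by
    rw [div_pow, div_le_div_iff₀ (by positivity) (by norm_num)]
    linarith
  have hsq : √((y / x) ^ 2) = y / x := Real.sqrt_sq (by positivity)
  have := h1 x hx hx1 ((y / x) ^ 2) hw hw3
  rw [hsq, mul_div_cancel₀ y (ne_of_gt hx)] at this
  rw [abs_le] at e1 e2
  have h3 : B * (F x 0 - F (2 * x) 0) ≤ B * (ε ^ 2 / (2 * B)) := by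
    apply mul_le_mul_of_nonneg_left _ hB.le
    have : ε ^ 2 / (2 * B) = 2 * (ε ^ 2 / (4 * B)) := by field_simp; ring
    linarith [e1.2, e2.1]
  have h4 : B * (ε ^ 2 / (2 * B)) = ε ^ 2 / 2 := by field_simp
  have h5 : (F x y - κ) ^ 2 ≤ ε ^ 2 := by linarith
  exact abs_le_of_sq_le_sq h5 hε.le

theorem normsq_rot (x y : ℝ) :
    (x / 2 - √3 / 2 * y) ^ 2 + (√3 / 2 * x + y / 2) ^ 2 = x ^ 2 + y ^ 2 := by
  have h33 : √(3:ℝ) ^ 2 = 3 := Real.sq_sqrt (by norm_num)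
  ring_nf
  rw [h33]
  ring

/-- Inverse rotation. -/
theorem Hyp.rot_inv (h : Hyp F κ C ρ) {x y : ℝ} (h0 : 0 < x ^ 2 + y ^ 2)
    (h1 : x ^ 2 + y ^ 2 < ρ ^ 2) :
    F (x / 2 + √3 / 2 * y) (-(√3 / 2) * x + y / 2) = F x y := by
  have h33 : √(3:ℝ) ^ 2 = 3 := Real.sq_sqrt (by norm_num)
  have hn := normsq_rot x (-y)
  have hn' : (x / 2 + √3 / 2 * y) ^ 2 + (-(√3 / 2) * x + y / 2) ^ 2 = x ^ 2 + y ^ 2 := by
    have e1 : (x / 2 - √3 / 2 * -y) = x / 2 + √3 / 2 * y := by ring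
    have e2 : (√3 / 2 * x + -y / 2) ^ 2 = (-(√3 / 2) * x + y / 2) ^ 2 := by ring
    rw [e1, e2] at hn
    rw [hn]; ring
  have := h.rot (x / 2 + √3 / 2 * y) (-(√3 / 2) * x + y / 2) (by rw [hn']; exact h0)
    (by rw [hn']; exact h1)
  rw [← this]
  congr 1
  · ring_nf; rw [h33]; ring
  · ring_nf; rw [h33]; ring

theorem Hyp.neg (h : Hyp F κ C ρ) {x y : ℝ} (h0 : 0 < x ^ 2 + y ^ 2)
    (h1 : x ^ 2 + y ^ 2 < ρ ^ 2) : F (-x) (-y) = F x y := by
  have h33 : √(3:ℝ) ^ 2 = 3 := Real.sq_sqrt (by norm_num)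
  have n1 := normsq_rot x y
  have n2 := normsq_rot (x / 2 - √3 / 2 * y) (√3 / 2 * x + y / 2)
  rw [n1] at n2
  have r1 := h.rot x y h0 h1
  have r2 := h.rot (x / 2 - √3 / 2 * y) (√3 / 2 * x + y / 2) (by rw [n1]; exact h0)
    (by rw [n1]; exact h1)
  have r3 := h.rot _ _ (by rw [n2]; exact h0) (by rw [n2]; exact h1)
  rw [r2, r1] at r3
  rw [← r3]
  have h333 : √(3:ℝ) ^ 3 = 3 * √3 := by rw [pow_succ, h33]
  congr 1
  · ring_nf; rw [h33, h333]; ring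
  · ring_nf; rw [h33, h333]; ring

/-- **Isotropy.** -/
theorem isotropy (h : Hyp F κ C ρ) :
    ∀ ε, 0 < ε → ∃ r0, 0 < r0 ∧ ∀ x y, 0 < x ^ 2 + y ^ 2 → x ^ 2 + y ^ 2 < r0 ^ 2 →
      |F x y - κ| ≤ ε := by
  intro ε hε
  obtain ⟨r1, hr1, hs⟩ := sector h ε hε
  have hρ := h.rho_pos
  set r0 : ℝ := min r1 ρ with hr0
  have hr0pos : 0 < r0 := lt_min hr1 hρ
  have hr01 : r0 ≤ r1 := min_le_left _ _
  have hr0ρ : r0 ≤ ρ := min_le_right _ _
  refine ⟨r0, hr0pos, ?_⟩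
  have h33 : √(3:ℝ) ^ 2 = 3 := Real.sq_sqrt (by norm_num)
  have hs3 : 0 < √(3:ℝ) := by positivity
  have hs3l : (1.7:ℝ) < √3 := by
    rw [Real.lt_sqrt (by norm_num)]; norm_num
  have hs3u : √(3:ℝ) < 1.8 := by
    rw [Real.sqrt_lt' (by norm_num)]; norm_num
  have hρ2 : r0 ^ 2 ≤ ρ ^ 2 := pow_le_pow_left₀ hr0pos.le hr0ρ 2
  -- first quadrant
  have quad : ∀ x y, 0 ≤ x → 0 ≤ y → 0 < x ^ 2 + y ^ 2 → x ^ 2 + y ^ 2 < r0 ^ 2 →
      |F x y - κ| ≤ ε := by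
    intro x y hx hy h0 h1
    have h1ρ : x ^ 2 + y ^ 2 < ρ ^ 2 := lt_of_lt_of_le h1 hρ2
    have hxr : x < r0 := lt_of_pow_lt_pow_left₀ 2 hr0pos.le (by nlinarith)
    by_cases c1 : √3 * y ≤ x
    · -- angle ≤ 30
      have hx0 : 0 < x := by
        rcases hx.lt_or_eq with h | h
        · exact h
        · exfalso
          rw [← h] at c1 h0
          have : y = 0 := by nlinarith
          rw [this] at h0; simp at h0
      refine hs x y hx0 hy ?_ (lt_of_lt_of_le hxr hr01)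
      have : (√3 * y) ^ 2 ≤ x ^ 2 := pow_le_pow_left₀ (by positivity) c1 2
      rw [mul_pow, h33] at this
      exact this
    · push Not at c1
      have hy0 : 0 < y := by
        by_contra hcon
        have : y = 0 := le_antisymm (not_lt.1 hcon) hy
        rw [this] at c1; simp at c1; linarith
      set u := x / 2 + √3 / 2 * y with hu
      set v := -(√3 / 2) * x + y / 2 with hv
      have huv : u ^ 2 + v ^ 2 = x ^ 2 + y ^ 2 := by
        rw [hu, hv]; ring_nf; rw [h33]; ring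
      have hF : F u v = F x y := h.rot_inv h0 h1ρ
      have hu0 : 0 < u := by rw [hu]; positivity
      have hur : u < r0 := lt_of_pow_lt_pow_left₀ 2 hr0pos.le (by nlinarith)
      by_cases c2 : √3 * x ≤ y
      · -- angle ≥ 60, `v ≥ 0`
        have hv0 : 0 ≤ v := by rw [hv]; linarith
        rw [← hF]
        refine hs u v hu0 hv0 ?_ (lt_of_lt_of_le hur hr01)
        have h3v : √3 * v ≤ u := by
          have : √3 * v = -(√3 ^ 2 / 2) * x + √3 / 2 * y := by rw [hv]; ring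
          rw [this, h33, hu]; linarith
        have : (√3 * v) ^ 2 ≤ u ^ 2 := pow_le_pow_left₀ (by positivity) h3v 2
        rw [mul_pow, h33] at this
        exact this
      · -- angle between 30 and 60, `v < 0`
        push Not at c2
        have hv0 : 0 ≤ -v := by rw [hv]; linarith
        rw [← hF, ← h.refl u v (by rw [huv]; exact h0) (by rw [huv]; exact h1ρ)]
        refine hs u (-v) hu0 hv0 ?_ (lt_of_lt_of_le hur hr01)
        have h3v : √3 * (-v) ≤ u := by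
          have : √3 * (-v) = (√3 ^ 2 / 2) * x - √3 / 2 * y := by rw [hv]; ring
          rw [this, h33, hu]; linarith
        have : (√3 * (-v)) ^ 2 ≤ u ^ 2 := pow_le_pow_left₀ (by positivity) h3v 2
        rw [mul_pow, h33] at this
        exact this
  -- general
  intro x y h0 h1
  have h1ρ : x ^ 2 + y ^ 2 < ρ ^ 2 := lt_of_lt_of_le h1 hρ2
  rcases le_total 0 x with hx | hx <;> rcases le_total 0 y with hy | hy
  · exact quad x y hx hy h0 h1
  · have := quad x (-y) hx (by linarith) (by simpa using h0) (by simpa using h1)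
    rwa [h.refl x y h0 h1ρ] at this
  · have := quad (-x) y (by linarith) hy (by simpa using h0) (by simpa using h1)
    rw [← h.refl (-x) y (by simpa using h0) (by simpa using h1ρ), h.neg h0 h1ρ] at this
    exact this
  · have := quad (-x) (-y) (by linarith) (by linarith) (by simpa using h0) (by simpa using h1)
    rwa [h.neg h0 h1ρ] at this

end Vale.Agent.P153.Iso
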