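import Mathlib
import Vale.Agent.P153.Iso.Main

/-!
# Isotropy, asymptotic form of the hypotheses

`AHyp` only contains asymptotic statements at `k → 0`; it does not need a pointwise density with
exact regularity and can be checked on torus values, cylinder values or small-ball averages.
-/

open Filter Topology
open scoped BigOperators

namespace Vale.Agent.P153.Iso

/-- Invariance under the symmetries of the triangular lattice, near `0`. -/
structure D6 (F : ℝ → ℝ → ℝ) (ρ : ℝ) : Prop where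
  rot : ∀ x y, 0 < x ^ 2 + y ^ 2 → x ^ 2 + y ^ 2 < ρ ^ 2 →
    F (x / 2 - √3 / 2 * y) (√3 / 2 * x + y / 2) = F x y
  refl : ∀ x y, 0 < x ^ 2 + y ^ 2 → x ^ 2 + y ^ 2 < ρ ^ 2 → F x (-y) = F x y

/-- Asymptotic hypotheses. -/
structure AHyp (F : ℝ → ℝ → ℝ) (κ C ρ : ℝ) : Prop where
  rho_pos : 0 < ρ
  nonneg : ∀ x y, 0 < x ^ 2 + y ^ 2 → x ^ 2 + y ^ 2 < ρ ^ 2 → 0 ≤ F x y
  bdd : ∀ x y, 0 < x ^ 2 + y ^ 2 → x ^ 2 + y ^ 2 < ρ ^ 2 → F x y ≤ C
  sym : D6 F ρ
  /-- Asymptotic equicontinuity (in scale invariant distance). -/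
  equi : ∀ ε, 0 < ε → ∃ δ, 0 < δ ∧ ∃ r0, 0 < r0 ∧ ∀ x y x' y', 0 < x ^ 2 + y ^ 2 →
    x ^ 2 + y ^ 2 < r0 ^ 2 → (x - x') ^ 2 + (y - y') ^ 2 ≤ δ ^ 2 * (x ^ 2 + y ^ 2) →
    |F x y - F x' y'| ≤ ε
  /-- The limit along the normal axis. -/
  axis : Tendsto (fun t => F 0 t) (𝓝[>] 0) (𝓝 κ)
  /-- For every finite set `X` of slopes squared, `F r (r √x) / (1 + x)`, `x ∈ X`, is
  approximately a finite Stieltjes function. -/
  st : ∀ X : Finset ℝ, (∀ x ∈ X, 0 < x) → ∀ ε, 0 < ε → ∃ r0, 0 < r0 ∧ ∀ r, 0 < r → r < r0 →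
    ∃ (n : ℕ) (nu z : Fin n → ℝ), (∀ i, 0 ≤ nu i) ∧ (∀ i, 0 ≤ z i) ∧
      ∀ x ∈ X, |F r (r * √x) / (1 + x) - ∑ i, nu i / (z i + x)| ≤ ε

variable {F : ℝ → ℝ → ℝ} {κ C ρ : ℝ}

theorem D6.rot30 (h : D6 F ρ) {r : ℝ} (hr : 0 < r) (hr' : 2 * r < ρ) :
    F r (r * √(1 / 3)) = F 0 (2 * r * √(1 / 3)) := by
  have h3 : √(1 / 3 : ℝ) = √3 / 3 := by
    rw [Real.sqrt_div (by norm_num), Real.sqrt_one]
    have : √(3:ℝ) * √3 = 3 := Real.mul_self_sqrt (by norm_num)
    have h0 : √(3:ℝ) ≠ 0 := by positivity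
    field_simp
    linarith [this]
  have h33 : √(3:ℝ) ^ 2 = 3 := Real.sq_sqrt (by norm_num)
  rw [h3]
  have := h.rot r (r * (√3 / 3)) (by positivity) (by nlinarith)
  rw [← this]
  congr 1
  · ring_nf; rw [h33]; ring
  · ring

theorem D6.rot60 (h : D6 F ρ) {r : ℝ} (hr : 0 < r) (hr' : 2 * r < ρ) :
    F r (r * √3) = F (2 * r) 0 := by
  have := h.rot (2 * r) 0 (by positivity) (by nlinarith)
  rw [← this]
  congr 1
  · ring
  · ring

/-- Inverse rotation. -/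
theorem D6.rot_inv (h : D6 F ρ) {x y : ℝ} (h0 : 0 < x ^ 2 + y ^ 2)
    (h1 : x ^ 2 + y ^ 2 < ρ ^ 2) :
    F (x / 2 + √3 / 2 * y) (-(√3 / 2) * x + y / 2) = F x y := by
  have h33 : √(3:ℝ) ^ 2 = 3 := Real.sq_sqrt (by norm_num)
  have hn := normsq_rot x (-y)
  have hn' : (x / 2 + √3 / 2 * y) ^ 2 + (-(√3 / 2) * x + y / 2) ^ 2 = x ^ 2 + y ^ 2 := by
    have e1 : (x / 2 - √3 / 2 * -y) = x / 2 + √3 / 2 * y := by ring
    have e2 : (√3 / 2 * x + -y / 2) ^ 2 = (-(√3 / 2) * x + y / 2) ^ 2 := by ring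
    rw [e1, e2] at hn
    rw [hn]; ring
  have := h.rot (x / 2 + √3 / 2 * y) (-(√3 / 2) * x + y / 2) (by rw [hn']; exact h0)
    (by rw [hn']; exact h1)
  rw [← this]
  congr 1
  · ring_nf; rw [h33]; ring
  · ring_nf; rw [h33]; ring

theorem D6.neg (h : D6 F ρ) {x y : ℝ} (h0 : 0 < x ^ 2 + y ^ 2)
    (h1 : x ^ 2 + y ^ 2 < ρ ^ 2) : F (-x) (-y) = F x y := by
  have h33 : √(3:ℝ) ^ 2 = 3 := Real.sq_sqrt (by norm_num)
  have n1 := normsq_rot x y
  have n2 := normsq_rot (x / 2 - √3 / 2 * y) (√3 / 2 * x + y / 2)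
  rw [n1] at n2
  have r1 := h.rot x y h0 h1
  have r2 := h.rot (x / 2 - √3 / 2 * y) (√3 / 2 * x + y / 2) (by rw [n1]; exact h0)
    (by rw [n1]; exact h1)
  have r3 := h.rot _ _ (by rw [n2]; exact h0) (by rw [n2]; exact h1)
  rw [r2, r1] at r3
  rw [← r3]
  have h333 : √(3:ℝ) ^ 3 = 3 * √3 := by rw [pow_succ, h33]
  congr 1
  · ring_nf; rw [h33, h333]; ring
  · ring_nf; rw [h33, h333]; ring

/-- From the sector `0 ≤ θ ≤ 30°` to all directions. -/
theorem D6.of_sector (h : D6 F ρ) (hρ : 0 < ρ) {ε r1 : ℝ} (hr1 : 0 < r1)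
    (hs : ∀ x y, 0 < x → 0 ≤ y → 3 * y ^ 2 ≤ x ^ 2 → x < r1 → |F x y - κ| ≤ ε) :
    ∃ r0, 0 < r0 ∧ ∀ x y, 0 < x ^ 2 + y ^ 2 → x ^ 2 + y ^ 2 < r0 ^ 2 → |F x y - κ| ≤ ε := by
  set r0 : ℝ := min r1 ρ with hr0
  have hr0pos : 0 < r0 := lt_min hr1 hρ
  have hr01 : r0 ≤ r1 := min_le_left _ _
  have hr0ρ : r0 ≤ ρ := min_le_right _ _
  refine ⟨r0, hr0pos, ?_⟩
  have h33 : √(3:ℝ) ^ 2 = 3 := Real.sq_sqrt (by norm_num)
  have hs3 : 0 < √(3:ℝ) := by positivity
  have hρ2 : r0 ^ 2 ≤ ρ ^ 2 := pow_le_pow_left₀ hr0pos.le hr0ρ 2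
  have quad : ∀ x y, 0 ≤ x → 0 ≤ y → 0 < x ^ 2 + y ^ 2 → x ^ 2 + y ^ 2 < r0 ^ 2 →
      |F x y - κ| ≤ ε := by
    intro x y hx hy h0 h1
    have h1ρ : x ^ 2 + y ^ 2 < ρ ^ 2 := lt_of_lt_of_le h1 hρ2
    have hxr : x < r0 := lt_of_pow_lt_pow_left₀ 2 hr0pos.le (by nlinarith)
    by_cases c1 : √3 * y ≤ x
    · have hx0 : 0 < x := by
        rcases hx.lt_or_eq with h | h
        · exact h
        · exfalso
          rw [← h] at c1 h0
          have : y = 0 := by nlinarith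
          rw [this] at h0; simp at h0
      refine hs x y hx0 hy ?_ (lt_of_lt_of_le hxr hr01)
      have : (√3 * y) ^ 2 ≤ x ^ 2 := pow_le_pow_left₀ (by positivity) c1 2
      rw [mul_pow, h33] at this
      exact this
    · push Not at c1
      have hy0 : 0 < y := by
        by_contra hcon
        have : y = 0 := le_antisymm (not_lt.1 hcon) hy
        rw [this] at c1; simp at c1; linarith
      set u := x / 2 + √3 / 2 * y with hu
      set v := -(√3 / 2) * x + y / 2 with hv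
      have huv : u ^ 2 + v ^ 2 = x ^ 2 + y ^ 2 := by
        rw [hu, hv]; ring_nf; rw [h33]; ring
      have hF : F u v = F x y := h.rot_inv h0 h1ρ
      have hu0 : 0 < u := by rw [hu]; positivity
      have hur : u < r0 := lt_of_pow_lt_pow_left₀ 2 hr0pos.le (by nlinarith)
      by_cases c2 : √3 * x ≤ y
      · have hv0 : 0 ≤ v := by rw [hv]; linarith
        rw [← hF]
        refine hs u v hu0 hv0 ?_ (lt_of_lt_of_le hur hr01)
        have h3v : √3 * v ≤ u := by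
          have : √3 * v = -(√3 ^ 2 / 2) * x + √3 / 2 * y := by rw [hv]; ring
          rw [this, h33, hu]; linarith
        have : (√3 * v) ^ 2 ≤ u ^ 2 := pow_le_pow_left₀ (by positivity) h3v 2
        rw [mul_pow, h33] at this
        exact this
      · push Not at c2
        have hv0 : 0 ≤ -v := by rw [hv]; linarith
        rw [← hF, ← h.refl u v (by rw [huv]; exact h0) (by rw [huv]; exact h1ρ)]
        refine hs u (-v) hu0 hv0 ?_ (lt_of_lt_of_le hur hr01)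
        have h3v : √3 * (-v) ≤ u := by
          have : √3 * (-v) = (√3 ^ 2 / 2) * x - √3 / 2 * y := by rw [hv]; ring
          rw [this, h33, hu]; linarith
        have : (√3 * (-v)) ^ 2 ≤ u ^ 2 := pow_le_pow_left₀ (by positivity) h3v 2
        rw [mul_pow, h33] at this
        exact this
  intro x y h0 h1
  have h1ρ : x ^ 2 + y ^ 2 < ρ ^ 2 := lt_of_lt_of_le h1 hρ2
  rcases le_total 0 x with hx | hx <;> rcases le_total 0 y with hy | hy
  · exact quad x y hx hy h0 h1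
  · have := quad x (-y) hx (by linarith) (by simpa using h0) (by simpa using h1)
    rwa [h.refl x y h0 h1ρ] at this
  · have := quad (-x) y (by linarith) hy (by simpa using h0) (by simpa using h1)
    rw [← h.refl (-x) y (by simpa using h0) (by simpa using h1ρ), h.neg h0 h1ρ] at this
    exact this
  · have := quad (-x) (-y) (by linarith) (by linarith) (by simpa using h0) (by simpa using h1)
    rwa [h.neg h0 h1ρ] at this

namespace AHyp

theorem C_nonneg (h : AHyp F κ C ρ) : 0 ≤ C := by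
  have hρ := h.rho_pos
  have h1 := h.nonneg 0 (ρ / 2) (by positivity) (by nlinarith)
  have h2 := h.bdd 0 (ρ / 2) (by positivity) (by nlinarith)
  linarith

theorem kappa_nonneg (h : AHyp F κ C ρ) : 0 ≤ κ := by
  refine ge_of_tendsto h.axis ?_
  have hρ := h.rho_pos
  filter_upwards [Ioo_mem_nhdsGT hρ] with t ht
  exact h.nonneg 0 t (by nlinarith [ht.1]) (by nlinarith [ht.1, ht.2])

/-- The axis limit in `ε`-form. -/
theorem axis' (h : AHyp F κ C ρ) {ε : ℝ} (hε : 0 < ε) :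
    ∃ δ, 0 < δ ∧ δ ≤ ρ ∧ ∀ t, 0 < t → t < δ → |F 0 t - κ| ≤ ε := by
  have h1 := (Metric.tendsto_nhds.1 h.axis) ε hε
  rw [eventually_nhdsWithin_iff, Metric.eventually_nhds_iff] at h1
  obtain ⟨δ, hδ, hd⟩ := h1
  refine ⟨min δ ρ, lt_min hδ h.rho_pos, min_le_right _ _, fun t ht0 ht => ?_⟩
  have := hd (y := t) (by rw [Real.dist_eq, sub_zero, abs_of_pos ht0]; exact lt_of_lt_of_le ht (min_le_left _ _)) ht0
  rw [Real.dist_eq] at this
  exact this.le

/-- Moving the slope slightly. -/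
theorem slope_shift (h : AHyp F κ C ρ) {ε δ x1 r w : ℝ} (hε : 0 < ε)
    (hx1 : 0 < x1) (hx1δ : x1 ≤ δ ^ 2) (_hδ : 0 < δ) (hx1C : (C + 1) * x1 ≤ ε)
    (hr : 0 < r) (hw : 0 ≤ w) (hwr : r ^ 2 * (1 + w) < ρ ^ 2)
    (heq : ∀ x' y', (r - x') ^ 2 + (r * √w - y') ^ 2 ≤ δ ^ 2 * (r ^ 2 + (r * √w) ^ 2) →
      |F r (r * √w) - F x' y'| ≤ ε) :
    |F r (r * √w) / (1 + w) - F r (r * √(w + x1)) / (1 + (w + x1))| ≤ 2 * ε := by
  have hC := h.C_nonneg
  have hs : √w ^ 2 = w := Real.sq_sqrt hw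
  have hs' : √(w + x1) ^ 2 = w + x1 := Real.sq_sqrt (by positivity)
  have hmono : √w ≤ √(w + x1) := Real.sqrt_le_sqrt (by linarith)
  have hdiff : (√(w + x1) - √w) ^ 2 ≤ x1 := by
    have : 0 ≤ √w := Real.sqrt_nonneg _
    nlinarith
  have h1 : |F r (r * √w) - F r (r * √(w + x1))| ≤ ε := by
    apply heq
    have : (r - r) ^ 2 + (r * √w - r * √(w + x1)) ^ 2 = r ^ 2 * (√(w + x1) - √w) ^ 2 := by ring
    rw [this]
    have : δ ^ 2 * (r ^ 2 + (r * √w) ^ 2) = r ^ 2 * (δ ^ 2 * (1 + w)) := by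
      rw [mul_pow, hs]; ring
    rw [this]
    apply mul_le_mul_of_nonneg_left _ (by positivity)
    calc (√(w + x1) - √w) ^ 2 ≤ x1 := hdiff
      _ ≤ δ ^ 2 := hx1δ
      _ ≤ δ ^ 2 * (1 + w) := by nlinarith [sq_nonneg δ]
  have hFC : |F r (r * √w)| ≤ C := by
    rw [abs_of_nonneg (h.nonneg _ _ (by positivity) (by rw [mul_pow, hs]; linarith))]
    exact h.bdd _ _ (by positivity) (by rw [mul_pow, hs]; linarith)
  have hp1 : 0 < 1 + w := by positivity
  have hp2 : 0 < 1 + (w + x1) := by positivity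
  have hsplit : F r (r * √w) / (1 + w) - F r (r * √(w + x1)) / (1 + (w + x1))
      = (F r (r * √w) - F r (r * √(w + x1))) / (1 + (w + x1))
        + F r (r * √w) * (x1 / ((1 + w) * (1 + (w + x1)))) := by
    field_simp
    ring
  rw [hsplit]
  refine (abs_add_le _ _).trans ?_
  have t1 : |(F r (r * √w) - F r (r * √(w + x1))) / (1 + (w + x1))| ≤ ε := by
    rw [abs_div, abs_of_pos hp2, div_le_iff₀ hp2]
    nlinarith
  have t2 : |F r (r * √w) * (x1 / ((1 + w) * (1 + (w + x1))))| ≤ ε := by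
    rw [abs_mul, abs_of_pos (by positivity : 0 < x1 / ((1 + w) * (1 + (w + x1))))]
    have : x1 / ((1 + w) * (1 + (w + x1))) ≤ x1 := by
      apply div_le_self hx1.le
      nlinarith [mul_nonneg hw hw, mul_nonneg hw hx1.le]
    calc |F r (r * √w)| * (x1 / ((1 + w) * (1 + (w + x1)))) ≤ C * x1 :=
          mul_le_mul hFC this (by positivity) hC
      _ ≤ (C + 1) * x1 := by nlinarith
      _ ≤ ε := hx1C
  linarith

/-- The five approximations. -/
theorem five (h : AHyp F κ C ρ) {q x ε : ℝ} (hq : 0 < q) (hε : 0 < ε)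
    (hx : 0 ≤ x) :
    ∃ r0, 0 < r0 ∧ ∀ r, 0 < r → r < r0 →
    ∃ (n : ℕ) (nu z : Fin n → ℝ), (∀ i, 0 ≤ nu i) ∧ (∀ i, 0 < z i) ∧
      |F r 0 - G nu z 0| ≤ ε ∧
      |F 0 (2 * r * √(1 / 3)) / (1 + 1 / 3) - G nu z (1 / 3)| ≤ ε ∧
      |F (2 * r) 0 / (1 + 3) - G nu z 3| ≤ ε ∧
      |F r (r * q) / (1 + q ^ 2) - G nu z (q ^ 2)| ≤ ε ∧
      |F r (r * √x) / (1 + x) - G nu z x| ≤ ε := by
  have hC := h.C_nonneg
  have hρ := h.rho_pos
  obtain ⟨δ, hδ, r1, hr1, heq⟩ := h.equi (ε / 4) (by positivity)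
  set x1 : ℝ := min (δ ^ 2) (ε / (4 * (C + 1))) with hx1
  have hx1pos : 0 < x1 := by rw [hx1]; positivity
  have hx1δ : x1 ≤ δ ^ 2 := min_le_left _ _
  have hx1C : (C + 1) * x1 ≤ ε / 4 := by
    have : x1 ≤ ε / (4 * (C + 1)) := min_le_right _ _
    calc (C + 1) * x1 ≤ (C + 1) * (ε / (4 * (C + 1))) :=
          mul_le_mul_of_nonneg_left this (by positivity)
      _ = ε / 4 := by field_simp
  obtain ⟨r2, hr2, hst⟩ := h.st {0 + x1, 1 / 3 + x1, 3 + x1, q ^ 2 + x1, x + x1} (by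
    intro w hw
    simp only [Finset.mem_insert, Finset.mem_singleton] at hw
    rcases hw with rfl | rfl | rfl | rfl | rfl <;> positivity) (ε / 2) (by positivity)
  set M : ℝ := 4 + q ^ 2 + x with hM
  have hMpos : 0 < M := by rw [hM]; positivity
  set r3 : ℝ := min r1 ρ / (1 + M) with hr3
  have hr3pos : 0 < r3 := by rw [hr3]; positivity
  refine ⟨min r2 r3, by positivity, ?_⟩
  intro r hr hrlt
  have hrr2 : r < r2 := lt_of_lt_of_le hrlt (min_le_left _ _)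
  have hrr3 : r < r3 := lt_of_lt_of_le hrlt (min_le_right _ _)
  have hrM : r * (1 + M) < min r1 ρ := by
    rw [hr3, lt_div_iff₀ (by positivity)] at hrr3; exact hrr3
  have hrM1 : r * (1 + M) < r1 := lt_of_lt_of_le hrM (min_le_left _ _)
  have hrMρ : r * (1 + M) < ρ := lt_of_lt_of_le hrM (min_le_right _ _)
  obtain ⟨n, nu, z, hnu, hz, hG⟩ := hst r hr hrr2
  have h2r : 2 * r < ρ := by nlinarith
  have key : ∀ w : ℝ, 0 ≤ w → w ≤ M →
      w + x1 ∈ ({0 + x1, 1 / 3 + x1, 3 + x1, q ^ 2 + x1, x + x1} : Finset ℝ) →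
      |F r (r * √w) / (1 + w) - G nu (fun i => z i + x1) w| ≤ ε := by
    intro w hw hwM hmem
    have hs : √w ^ 2 = w := Real.sq_sqrt hw
    have hbig : r ^ 2 * (1 + w) ≤ (r * (1 + M)) ^ 2 := by
      rw [mul_pow]
      apply mul_le_mul_of_nonneg_left _ (by positivity)
      nlinarith
    have h1 := h.slope_shift (ε := ε / 4) (x1 := x1) (δ := δ) (r := r) (w := w)
      (by positivity) hx1pos hx1δ hδ hx1C hr hw
      (lt_of_le_of_lt hbig (pow_lt_pow_left₀ hrMρ (by positivity) (by norm_num)))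
      (fun x' y' hxy => heq r (r * √w) x' y' (by positivity) (by
        have : r ^ 2 + (r * √w) ^ 2 = r ^ 2 * (1 + w) := by rw [mul_pow, hs]; ring
        rw [this]
        exact lt_of_le_of_lt hbig (pow_lt_pow_left₀ hrM1 (by positivity) (by norm_num))) hxy)
    have h2 := hG _ hmem
    have h3 : G nu (fun i => z i + x1) w = ∑ i, nu i / (z i + (w + x1)) := by
      unfold G
      refine Finset.sum_congr rfl fun i _ => ?_
      congr 1; ring
    rw [h3]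
    calc |F r (r * √w) / (1 + w) - ∑ i, nu i / (z i + (w + x1))|
        = |(F r (r * √w) / (1 + w) - F r (r * √(w + x1)) / (1 + (w + x1)))
            + (F r (r * √(w + x1)) / (1 + (w + x1)) - ∑ i, nu i / (z i + (w + x1)))| := by
          congr 1; ring
      _ ≤ _ := abs_add_le _ _
      _ ≤ ε := by linarith
  have k0 := key 0 le_rfl hMpos.le (by simp)
  have k13 := key (1 / 3) (by norm_num) (by rw [hM]; nlinarith [sq_nonneg q]) (by simp)
  have k3 := key 3 (by norm_num) (by rw [hM]; nlinarith [sq_nonneg q]) (by simp)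
  have kq := key (q ^ 2) (by positivity) (by rw [hM]; linarith) (by simp)
  have kx := key x hx (by rw [hM]; nlinarith [sq_nonneg q]) (by simp)
  rw [Real.sqrt_zero, mul_zero, add_zero, div_one] at k0
  rw [h.sym.rot30 hr h2r] at k13
  rw [h.sym.rot60 hr h2r] at k3
  rw [Real.sqrt_sq hq.le] at kq
  exact ⟨n, nu, fun i => z i + x1, hnu, fun i => by have := hz i; positivity, k0, k13, k3, kq, kx⟩

/-- **Main inequality.** -/
theorem main_ineq (h : AHyp F κ C ρ) :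
    ∃ B, 0 < B ∧ ∀ x, 0 ≤ x → x ≤ 1 / 3 → ∀ η, 0 < η → ∃ r0, 0 < r0 ∧ ∀ r, 0 < r → r < r0 →
      (F r (r * √x) - κ) ^ 2 ≤ B * (F r 0 - F (2 * r) 0) + η := by
  have hC := h.C_nonneg
  have hκ := h.kappa_nonneg
  have hρ := h.rho_pos
  set B0 : ℝ := κ + 7 / 3 * (C + 1) + 7 with hB0
  have hB0pos : 0 < B0 := by rw [hB0]; positivity
  refine ⟨4 * B0, by positivity, ?_⟩
  intro x hx hx3 η hη
  obtain ⟨ε, hε, hε1, hεη⟩ : ∃ ε : ℝ, 0 < ε ∧ ε ≤ 1 ∧ (44 * B0 + 200) * ε ≤ η := by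
    refine ⟨min 1 (η / (44 * B0 + 200)), by positivity, min_le_left _ _, ?_⟩
    have h1 : min 1 (η / (44 * B0 + 200)) ≤ η / (44 * B0 + 200) := min_le_right _ _
    calc (44 * B0 + 200) * min 1 (η / (44 * B0 + 200))
        ≤ (44 * B0 + 200) * (η / (44 * B0 + 200)) := mul_le_mul_of_nonneg_left h1 (by positivity)
      _ = η := by field_simp
  obtain ⟨d, hd, rd, hrd, hequi⟩ := h.equi ε hε
  obtain ⟨q, hq2, hqC, hqκ⟩ := choose_q (C := ε / d) (κ := κ) (by positivity) hκ hε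
  have hq0 : 0 < q := by linarith
  have hqd : 1 ≤ d * q := by
    rw [div_div, div_le_iff₀ (by positivity)] at hqC
    have : ε * 1 ≤ ε * (d * q) := by linarith
    exact le_of_mul_le_mul_left this hε
  obtain ⟨δ, hδ, hδρ, hax⟩ := h.axis' hε
  obtain ⟨r5, hr5, hfive⟩ := h.five (q := q) (x := x) (ε := ε / (5 * (1 + q ^ 2))) hq0
    (by positivity) hx
  set r0 : ℝ := min r5 (min (δ / (2 * q)) (rd / (2 * q))) with hr0
  refine ⟨r0, by positivity, ?_⟩
  intro r hr hrr0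
  have hr1 : r < r5 := lt_of_lt_of_le hrr0 (min_le_left _ _)
  have hr2 : r < δ / (2 * q) :=
    lt_of_lt_of_le hrr0 ((min_le_right _ _).trans (min_le_left _ _))
  have hr3 : r < rd / (2 * q) :=
    lt_of_lt_of_le hrr0 ((min_le_right _ _).trans (min_le_right _ _))
  have hrq : 2 * (r * q) < δ := by
    rw [lt_div_iff₀ (by positivity)] at hr2; linarith
  have hrqd : 2 * (r * q) < rd := by
    rw [lt_div_iff₀ (by positivity)] at hr3; linarith
  have hrδ : 4 * r < δ := by nlinarith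
  obtain ⟨n, nu, z, hnu, hz, e0, e13, e3, eq0, ex⟩ := hfive r hr hr1
  have hεq : ε / (5 * (1 + q ^ 2)) ≤ ε / 5 := by
    apply div_le_div_of_nonneg_left hε.le (by norm_num)
    nlinarith [sq_nonneg q]
  have hεq' : (1 + q ^ 2) * (ε / (5 * (1 + q ^ 2))) ≤ ε := by
    have : (1 + q ^ 2) * (ε / (5 * (1 + q ^ 2))) = ε / 5 := by field_simp
    rw [this]; linarith
  have hs13' : √(1 / 3 : ℝ) ≤ 1 := by rw [Real.sqrt_le_one]; norm_num
  have a13 : |F 0 (2 * r * √(1 / 3)) - κ| ≤ ε := by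
    apply hax
    · positivity
    · nlinarith
  have aq : |F 0 (r * q) - κ| ≤ ε := by
    apply hax
    · positivity
    · linarith
  have lq : |F 0 (r * q) - F r (r * q)| ≤ ε := by
    apply hequi
    · positivity
    · have : 0 ^ 2 + (r * q) ^ 2 = (r * q) ^ 2 := by ring
      rw [this]
      exact pow_lt_pow_left₀ (by linarith [mul_pos hr hq0]) (by positivity) (by norm_num)
    · have e1 : (0 - r) ^ 2 + (r * q - r * q) ^ 2 = r ^ 2 * 1 := by ring
      have e2 : d ^ 2 * (0 ^ 2 + (r * q) ^ 2) = r ^ 2 * (d * q) ^ 2 := by ring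
      rw [e1, e2]
      exact mul_le_mul_of_nonneg_left (one_le_pow₀ hqd) (by positivity)
  have kq : |F r (r * q) - κ| ≤ 2 * ε := by
    rw [abs_le] at lq aq ⊢
    constructor <;> linarith [lq.1, lq.2, aq.1, aq.2]
  have hFxC : F r 0 ≤ C := h.bdd r 0 (by positivity) (by nlinarith)
  have := quad_est hnu hz hC hκ hε hε1 hq0 hqκ hx hx3 hFxC (e0.trans hεq) (e13.trans hεq)
    (e3.trans hεq) ((mul_le_mul_of_nonneg_left eq0 (by positivity)).trans hεq')
    (ex.trans hεq) a13 kq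
  rw [← hB0] at this
  linarith

/-- The value on the ray `θ = 0`. -/
theorem ray (h : AHyp F κ C ρ) :
    ∀ ε, 0 < ε → ∃ r0, 0 < r0 ∧ ∀ r, 0 < r → r < r0 → |F r 0 - κ| ≤ ε := by
  obtain ⟨B, hB, hmain⟩ := main_ineq h
  have hρ := h.rho_pos
  refine dyadic (a := fun r => F r 0) (B := B) (C := C) hB hρ ?_ ?_ ?_
  · intro r h1 h2
    exact h.nonneg r 0 (by positivity) (by nlinarith)
  · intro r h1 h2
    exact h.bdd r 0 (by positivity) (by nlinarith)
  · intro η hη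
    obtain ⟨r0, hr0, hr⟩ := hmain 0 le_rfl (by norm_num) η hη
    refine ⟨r0, hr0, fun r h1 h2 => ?_⟩
    have := hr r h1 h2
    simpa using this

/-- One direction in the sector. -/
theorem one_dir (h : AHyp F κ C ρ) {s : ℝ} (hs : 0 ≤ s) (hs3 : 3 * s ^ 2 ≤ 1) :
    ∀ ε, 0 < ε → ∃ r0, 0 < r0 ∧ ∀ r, 0 < r → r < r0 → |F r (r * s) - κ| ≤ ε := by
  obtain ⟨B, hB, hmain⟩ := main_ineq h
  intro ε hε
  obtain ⟨r1, hr1, h1⟩ := hmain (s ^ 2) (by positivity) (by linarith) (ε ^ 2 / 2) (by positivity)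
  obtain ⟨r2, hr2, h2⟩ := ray h (ε ^ 2 / (4 * B)) (by positivity)
  refine ⟨min r1 (r2 / 2), by positivity, ?_⟩
  intro r hr hlt
  have hx1 : r < r1 := lt_of_lt_of_le hlt (min_le_left _ _)
  have hx2 : r < r2 / 2 := lt_of_lt_of_le hlt (min_le_right _ _)
  have e1 := h2 r hr (by linarith)
  have e2 := h2 (2 * r) (by positivity) (by linarith)
  have := h1 r hr hx1
  rw [Real.sqrt_sq hs] at this
  rw [abs_le] at e1 e2
  have h3 : B * (F r 0 - F (2 * r) 0) ≤ B * (ε ^ 2 / (2 * B)) := by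
    apply mul_le_mul_of_nonneg_left _ hB.le
    have : ε ^ 2 / (2 * B) = 2 * (ε ^ 2 / (4 * B)) := by field_simp; ring
    linarith [e1.2, e2.1]
  have h4 : B * (ε ^ 2 / (2 * B)) = ε ^ 2 / 2 := by field_simp
  have h5 : (F r (r * s) - κ) ^ 2 ≤ ε ^ 2 := by linarith
  exact abs_le_of_sq_le_sq h5 hε.le

/-- The sector `0 ≤ θ ≤ 30°`. -/
theorem sector (h : AHyp F κ C ρ) :
    ∀ ε, 0 < ε → ∃ r0, 0 < r0 ∧ ∀ x y, 0 < x → 0 ≤ y → 3 * y ^ 2 ≤ x ^ 2 → x < r0 →
      |F x y - κ| ≤ ε := by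
  intro ε hε
  obtain ⟨d, hd, rd, hrd, hequi⟩ := h.equi (ε / 2) (by positivity)
  obtain ⟨N, hN⟩ := exists_nat_gt (1 / d)
  have hNpos : (0:ℝ) < N := lt_trans (by positivity) hN
  have hdN : 1 / (N:ℝ) < d := by
    rw [div_lt_iff₀ hd] at hN
    rw [div_lt_iff₀ hNpos]; linarith
  -- uniform radius on the net
  have hnet : ∀ᶠ r in 𝓝[>] (0:ℝ), ∀ j ∈ Finset.range (N + 1), 3 * ((j:ℝ) / N) ^ 2 ≤ 1 →
      |F r (r * (j / N)) - κ| ≤ ε / 2 := by
    rw [Filter.eventually_all_finset]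
    intro j _
    by_cases hj : 3 * ((j:ℝ) / N) ^ 2 ≤ 1
    · obtain ⟨r0, hr0, hr⟩ := h.one_dir (s := (j:ℝ) / N) (by positivity) hj (ε / 2) (by positivity)
      filter_upwards [Ioo_mem_nhdsGT hr0] with r hr' _
      exact hr r hr'.1 hr'.2
    · exact Filter.Eventually.of_forall fun r h' => absurd h' hj
  rw [eventually_nhdsWithin_iff, Metric.eventually_nhds_iff] at hnet
  obtain ⟨r1, hr1, hnet⟩ := hnet
  refine ⟨min r1 (rd / 2), by positivity, ?_⟩
  intro x y hx hy hxy hlt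
  have hx1 : x < r1 := lt_of_lt_of_le hlt (min_le_left _ _)
  have hx2 : x < rd / 2 := lt_of_lt_of_le hlt (min_le_right _ _)
  have hyx : y ≤ x := by nlinarith
  set s : ℝ := y / x with hs
  have hs0 : 0 ≤ s := by positivity
  have hs1 : s ≤ 1 := by rw [hs, div_le_one hx]; exact hyx
  have hs3 : 3 * s ^ 2 ≤ 1 := by
    rw [hs, div_pow, ← mul_div_assoc, div_le_one (by positivity)]; exact hxy
  set j : ℕ := ⌊s * N⌋₊ with hj
  have hj1 : (j:ℝ) ≤ s * N := Nat.floor_le (by positivity)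
  have hj2 : s * N < j + 1 := Nat.lt_floor_add_one _
  have hjs : (j:ℝ) / N ≤ s := by rw [div_le_iff₀ hNpos]; exact hj1
  have hjs' : s - j / N ≤ 1 / N := by
    rw [sub_le_iff_le_add, ← add_div, le_div_iff₀ hNpos]; linarith
  have hjN : j ∈ Finset.range (N + 1) := by
    rw [Finset.mem_range]
    have : (j:ℝ) ≤ N := hj1.trans (by nlinarith)
    have : j ≤ N := by exact_mod_cast this
    omega
  have hj0 : 0 ≤ (j:ℝ) / N := by positivity
  have h1 := hnet (y := x) (by rw [Real.dist_eq, sub_zero, abs_of_pos hx]; exact hx1) hx j hjN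
    (by nlinarith)
  have h2 : |F x (x * (j / N)) - F x y| ≤ ε / 2 := by
    apply hequi
    · positivity
    · have : (x * (j / N)) ≤ x := by
        calc x * ((j:ℝ) / N) ≤ x * 1 := mul_le_mul_of_nonneg_left (hjs.trans hs1) hx.le
          _ = x := mul_one x
      have h0 : 0 ≤ x * ((j:ℝ) / N) := by positivity
      nlinarith
    · have e1 : y = x * s := by rw [hs]; field_simp
      have e2 : (x - x) ^ 2 + (x * ((j:ℝ) / N) - y) ^ 2 = x ^ 2 * (s - j / N) ^ 2 := by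
        rw [e1]; ring
      rw [e2]
      have e3 : (s - (j:ℝ) / N) ^ 2 ≤ d ^ 2 := by
        apply pow_le_pow_left₀ (by linarith)
        linarith
      have e4 : x ^ 2 * (s - (j:ℝ) / N) ^ 2 ≤ x ^ 2 * d ^ 2 :=
        mul_le_mul_of_nonneg_left e3 (by positivity)
      nlinarith [mul_nonneg (sq_nonneg d) (sq_nonneg (x * ((j:ℝ) / N)))]
  rw [abs_le] at h1 h2 ⊢
  constructor <;> linarith [h1.1, h1.2, h2.1, h2.2]

/-- **Isotropy**, asymptotic form. -/
theorem isotropy (h : AHyp F κ C ρ) :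
    ∀ ε, 0 < ε → ∃ r0, 0 < r0 ∧ ∀ x y, 0 < x ^ 2 + y ^ 2 → x ^ 2 + y ^ 2 < r0 ^ 2 →
      |F x y - κ| ≤ ε := by
  intro ε hε
  obtain ⟨r1, hr1, hs⟩ := h.sector ε hε
  exact h.sym.of_sector h.rho_pos hr1 hs

end AHyp

end Vale.Agent.P153.Iso
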