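import Mathlib

/-!
# B5: from a density with a row representation to isotropy.  Definitions.

Physical momenta `z = k_x + i k_y : ℂ`, rows of the triangular lattice parallel to the real axis,
`θ = √3 k_y` is the phase of the translation by two rows.
-/

open MeasureTheory Filter Topology Set

namespace Vale.Agent.P153.Iso

/-- `|1 - τ e^{iθ}|^2 = (1-τ)^2 + τ (2 - 2 cos θ)` (same as `TwoPt.den`). -/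
noncomputable def den (τ θ : ℝ) : ℝ := (1 - τ) ^ 2 + τ * (2 - 2 * Real.cos θ)

/-- `e^{iπ/3}`. -/
noncomputable def om : ℂ := ⟨1 / 2, √3 / 2⟩

/-- The folded row density `∫ 1/|1-τ e^{iθ}|² dm_x(τ)`, `θ = √3 y`. -/
noncomputable def Psi (m : ℝ → Measure ℝ) (x y : ℝ) : ℝ := ∫ τ, 1 / den τ (√3 * y) ∂(m x)

/-- Input of B5. -/
structure DensHyp (φ : ℂ → ℝ) (m : ℝ → Measure ℝ) (C ρ : ℝ) : Prop where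
  rho_pos : 0 < ρ
  meas : Measurable φ
  nonneg : ∀ z, 0 ≤ φ z
  bdd : ∀ᵐ z : ℂ, ‖z‖ < ρ → ‖z‖ ^ 2 * φ z ≤ C
  rot : ∀ᵐ z : ℂ, φ (om * z) = φ z
  refl : ∀ᵐ z : ℂ, φ ((starRingEnd ℂ) z) = φ z
  supp : ∀ᵐ x : ℝ, ∀ᵐ τ ∂(m x), 0 ≤ τ ∧ τ < 1
  fin : ∀ᵐ x : ℝ, |x| < ρ → m x univ ≠ ⊤
  rep : ∀ᵐ z : ℂ, ‖z‖ < ρ → |φ z - Psi m z.re z.im| ≤ C

/-- Output of B5: the two-point function is asymptotically isotropic. -/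
def IsoOut (φ : ℂ → ℝ) (κ : ℝ) : Prop :=
  ∀ ε, 0 < ε → ∃ r0, 0 < r0 ∧ ∀ᵐ z : ℂ, z ≠ 0 → ‖z‖ < r0 → |‖z‖ ^ 2 * φ z - κ| ≤ ε

/-- Target theorem of B5. -/
def B5Statement : Prop := ∀ (φ : ℂ → ℝ) (m : ℝ → Measure ℝ) (C ρ : ℝ),
  DensHyp φ m C ρ → ∃ κ, 0 ≤ κ ∧ IsoOut φ κ ∧
    (∀ ε, 0 < ε → ∃ η, 0 < η ∧ ∀ᵐ k : ℝ, |k| < η → k ≠ 0 → ∀ θ : ℝ, |θ| < η →
      |(3 * k ^ 2 + θ ^ 2) * (∫ τ, 1 / den τ θ ∂(m k)) - 3 * κ| ≤ ε)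

end Vale.Agent.P153.Iso
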