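import Mathlib
import Vale.Agent.P153.Iso.DensDefs

/-!
# B5, part 1: the row kernel `1 / den τ θ`
-/

open MeasureTheory Filter Topology Set

namespace Vale.Agent.P153.Iso

theorem den_eq (τ θ : ℝ) : den τ θ = (τ - Real.cos θ) ^ 2 + Real.sin θ ^ 2 := by
  unfold den
  have := Real.sin_sq_add_cos_sq θ
  nlinarith

theorem sin_sq_le_den (τ θ : ℝ) : Real.sin θ ^ 2 ≤ den τ θ := by
  rw [den_eq]; nlinarith [sq_nonneg (τ - Real.cos θ)]

theorem den_pos {τ θ : ℝ} (hθ : Real.sin θ ≠ 0) : 0 < den τ θ :=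
  lt_of_lt_of_le (by positivity) (sin_sq_le_den τ θ)

theorem den_pos' {τ θ : ℝ} (h0 : 0 ≤ τ) (h1 : τ < 1) : 0 < den τ θ := by
  unfold den
  have : 0 ≤ 2 - 2 * Real.cos θ := by linarith [Real.cos_le_one θ]
  have h2 : 0 < (1 - τ) ^ 2 := by have : 0 < 1 - τ := by linarith
                                  positivity
  nlinarith [mul_nonneg h0 this]

/-- `den` increases with `θ ∈ [0, π]`. -/
theorem den_mono {τ θ θ' : ℝ} (h0 : 0 ≤ τ) (hθ : 0 ≤ θ) (hθθ : θ ≤ θ') (hθ' : θ' ≤ Real.pi) :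
    den τ θ ≤ den τ θ' := by
  unfold den
  have : Real.cos θ' ≤ Real.cos θ := Real.cos_le_cos_of_nonneg_of_le_pi hθ hθ' hθθ
  nlinarith

/-- `X / den` increases with `θ`. -/
theorem ratio_mono {τ θ θ' : ℝ} (h0 : 0 ≤ τ) (h1 : τ < 1) (hθ : 0 ≤ θ) (hθθ : θ ≤ θ')
    (hθ' : θ' ≤ Real.pi) :
    (2 - 2 * Real.cos θ) * (1 / den τ θ) ≤ (2 - 2 * Real.cos θ') * (1 / den τ θ') := by
  have hc : Real.cos θ' ≤ Real.cos θ := Real.cos_le_cos_of_nonneg_of_le_pi hθ hθ' hθθ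
  have p1 := den_pos' (θ := θ) h0 h1
  have p2 := den_pos' (θ := θ') h0 h1
  rw [mul_one_div, mul_one_div, div_le_div_iff₀ p1 p2]
  unfold den
  have hX : 0 ≤ 2 - 2 * Real.cos θ := by linarith [Real.cos_le_one θ]
  nlinarith [mul_nonneg (sq_nonneg (1 - τ)) (sub_nonneg.2 hc)]

/-- `sin b / b ≤ sin a / a`. -/
theorem sin_ratio {a b : ℝ} (ha : 0 < a) (hab : a ≤ b) (hb : b ≤ Real.pi) :
    Real.sin b * a ≤ Real.sin a * b := by
  have hc := strictConcaveOn_sin_Icc.concaveOn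
  have hb0 : 0 < b := lt_of_lt_of_le ha hab
  have m0 : (0:ℝ) ∈ Icc 0 Real.pi := ⟨le_rfl, Real.pi_pos.le⟩
  have mb : b ∈ Icc 0 Real.pi := ⟨hb0.le, hb⟩
  have c1 : 0 ≤ 1 - a / b := by rw [sub_nonneg, div_le_one hb0]; exact hab
  have c2 : 0 ≤ a / b := by positivity
  have h := hc.2 m0 mb c1 c2 (by ring)
  simp only [smul_eq_mul, mul_zero, Real.sin_zero, zero_add] at h
  rw [div_mul_cancel₀ a (ne_of_gt hb0)] at h
  have h2 := mul_le_mul_of_nonneg_right h hb0.le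
  have h3 : a / b * Real.sin b * b = Real.sin b * a := by field_simp
  linarith

theorem X_eq (θ : ℝ) : 2 - 2 * Real.cos θ = 4 * Real.sin (θ / 2) ^ 2 := by
  have h1 := Real.cos_sq' (θ / 2)
  have h2 := Real.cos_two_mul (θ / 2)
  have h3 : 2 * (θ / 2) = θ := by ring
  rw [h3] at h2
  rw [h2, h1]; ring

/-- `X(θ') / X(θ) ≤ (θ' / θ)²`. -/
theorem X_ratio {θ θ' : ℝ} (hθ : 0 < θ) (hθθ : θ ≤ θ') (hθ' : θ' ≤ Real.pi) :
    (2 - 2 * Real.cos θ') * θ ^ 2 ≤ (2 - 2 * Real.cos θ) * θ' ^ 2 := by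
  rw [X_eq, X_eq]
  have h := sin_ratio (a := θ / 2) (b := θ' / 2) (by linarith) (by linarith)
    (by linarith [Real.pi_pos])
  have h0 : 0 ≤ Real.sin (θ' / 2) :=
    Real.sin_nonneg_of_nonneg_of_le_pi (by linarith) (by linarith [Real.pi_pos])
  have h1 : Real.sin (θ' / 2) * θ ≤ Real.sin (θ / 2) * θ' := by linarith
  have h2 := pow_le_pow_left₀ (mul_nonneg h0 hθ.le) h1 2
  nlinarith

section measure

variable {μ : Measure ℝ}

theorem integrable_den [IsFiniteMeasure μ] {θ : ℝ} (hθ : Real.sin θ ≠ 0) :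
    Integrable (fun τ => 1 / den τ θ) μ := by
  refine Integrable.of_bound (C := 1 / Real.sin θ ^ 2) ?_ ?_
  · apply Measurable.aestronglyMeasurable
    unfold den
    fun_prop
  · refine Eventually.of_forall fun τ => ?_
    rw [Real.norm_of_nonneg (one_div_nonneg.2 (den_pos hθ).le)]
    exact one_div_le_one_div_of_le (by positivity) (sin_sq_le_den τ θ)

theorem psi_nonneg {θ : ℝ} (hs : ∀ᵐ τ ∂μ, 0 ≤ τ ∧ τ < 1) : 0 ≤ ∫ τ, 1 / den τ θ ∂μ := by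
  apply integral_nonneg_of_ae
  filter_upwards [hs] with τ hτ
  exact one_div_nonneg.2 (den_pos' hτ.1 hτ.2).le

theorem psi_anti [IsFiniteMeasure μ] (hs : ∀ᵐ τ ∂μ, 0 ≤ τ ∧ τ < 1) {θ θ' : ℝ} (hθ : 0 < θ)
    (hθθ : θ ≤ θ') (hθ' : θ' < Real.pi) :
    ∫ τ, 1 / den τ θ' ∂μ ≤ ∫ τ, 1 / den τ θ ∂μ := by
  have s1 : Real.sin θ ≠ 0 := (Real.sin_pos_of_pos_of_lt_pi hθ (by linarith)).ne'
  have s2 : Real.sin θ' ≠ 0 := (Real.sin_pos_of_pos_of_lt_pi (by linarith) hθ').ne'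
  refine integral_mono_ae (integrable_den s2) (integrable_den s1) ?_
  filter_upwards [hs] with τ hτ
  exact one_div_le_one_div_of_le (den_pos' hτ.1 hτ.2) (den_mono hτ.1 hθ.le hθθ hθ'.le)

theorem psi_ratio [IsFiniteMeasure μ] (hs : ∀ᵐ τ ∂μ, 0 ≤ τ ∧ τ < 1) {θ θ' : ℝ} (hθ : 0 < θ)
    (hθθ : θ ≤ θ') (hθ' : θ' < Real.pi) :
    (2 - 2 * Real.cos θ) * ∫ τ, 1 / den τ θ ∂μ ≤
      (2 - 2 * Real.cos θ') * ∫ τ, 1 / den τ θ' ∂μ := by
  have s1 : Real.sin θ ≠ 0 := (Real.sin_pos_of_pos_of_lt_pi hθ (by linarith)).ne'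
  have s2 : Real.sin θ' ≠ 0 := (Real.sin_pos_of_pos_of_lt_pi (by linarith) hθ').ne'
  rw [← integral_const_mul, ← integral_const_mul]
  refine integral_mono_ae ((integrable_den s1).const_mul _) ((integrable_den s2).const_mul _) ?_
  filter_upwards [hs] with τ hτ
  exact ratio_mono hτ.1 hτ.2 hθ.le hθθ hθ'.le

/-- `Ψ(θ) ≤ (θ'/θ)² Ψ(θ')`. -/
theorem psi_le [IsFiniteMeasure μ] (hs : ∀ᵐ τ ∂μ, 0 ≤ τ ∧ τ < 1) {θ θ' : ℝ} (hθ : 0 < θ)
    (hθθ : θ ≤ θ') (hθ' : θ' < Real.pi) :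
    ∫ τ, 1 / den τ θ ∂μ ≤ (θ' / θ) ^ 2 * ∫ τ, 1 / den τ θ' ∂μ := by
  have h1 := psi_ratio hs hθ hθθ hθ'
  have h2 := X_ratio hθ hθθ hθ'.le
  have hX : 0 < 2 - 2 * Real.cos θ := by
    rw [X_eq]
    have : 0 < Real.sin (θ / 2) :=
      Real.sin_pos_of_pos_of_lt_pi (by linarith) (by linarith [Real.pi_pos])
    positivity
  have h0 := psi_nonneg (θ := θ') hs
  set A := ∫ τ, 1 / den τ θ ∂μ
  set B := ∫ τ, 1 / den τ θ' ∂μ
  have h3 : (2 - 2 * Real.cos θ) * (A * θ ^ 2) ≤ (2 - 2 * Real.cos θ) * (θ' ^ 2 * B) := by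
    calc (2 - 2 * Real.cos θ) * (A * θ ^ 2) = ((2 - 2 * Real.cos θ) * A) * θ ^ 2 := by ring
      _ ≤ ((2 - 2 * Real.cos θ') * B) * θ ^ 2 := mul_le_mul_of_nonneg_right h1 (by positivity)
      _ = ((2 - 2 * Real.cos θ') * θ ^ 2) * B := by ring
      _ ≤ ((2 - 2 * Real.cos θ) * θ' ^ 2) * B := mul_le_mul_of_nonneg_right h2 h0
      _ = _ := by ring
  have h4 := le_of_mul_le_mul_left h3 hX
  rw [div_pow, div_mul_eq_mul_div, le_div_iff₀ (by positivity)]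
  exact h4

end measure

end Vale.Agent.P153.Iso
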