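import Mathlib
import Vale.Agent.P153.Iso.Kern

/-!
# B5, part 2: the row function is approximately a finite Stieltjes function
-/

open MeasureTheory Filter Topology Set
open scoped BigOperators

namespace Vale.Agent.P153.Iso

theorem continuous_inv_den {θ : ℝ} (hθ : Real.sin θ ≠ 0) : Continuous fun τ => 1 / den τ θ := by
  apply Continuous.div continuous_const
  · unfold den; fun_prop
  · intro τ; exact (den_pos hθ).ne'

/-- A common modulus of continuity. -/
theorem common_modulus (T : Finset ℝ) (hT : ∀ θ ∈ T, Real.sin θ ≠ 0) {ε : ℝ} (hε : 0 < ε) :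
    ∃ δ, 0 < δ ∧ ∀ θ ∈ T, ∀ s ∈ Icc (0:ℝ) 1, ∀ t ∈ Icc (0:ℝ) 1, |s - t| < δ →
      |1 / den s θ - 1 / den t θ| ≤ ε := by
  classical
  induction T using Finset.induction_on with
  | empty => exact ⟨1, one_pos, by simp⟩
  | insert a T ha ih =>
    obtain ⟨δ1, hδ1, h1⟩ := ih (fun θ hθ => hT θ (Finset.mem_insert_of_mem hθ))
    have hc := (continuous_inv_den (hT a (Finset.mem_insert_self a T))).continuousOn (s := Icc (0:ℝ) 1)
    have hu := isCompact_Icc.uniformContinuousOn_of_continuous hc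
    rw [Metric.uniformContinuousOn_iff] at hu
    obtain ⟨δ2, hδ2, h2⟩ := hu ε hε
    refine ⟨min δ1 δ2, lt_min hδ1 hδ2, ?_⟩
    intro θ hθ s hs t ht hst
    rcases Finset.mem_insert.1 hθ with rfl | hθ'
    · have := h2 s hs t ht (by rw [Real.dist_eq]; exact lt_of_lt_of_le hst (min_le_right _ _))
      rw [Real.dist_eq] at this
      exact this.le
    · exact h1 θ hθ' s hs t ht (lt_of_lt_of_le hst (min_le_left _ _))

theorem riemann {μ : Measure ℝ} [IsFiniteMeasure μ] (hs : ∀ᵐ τ ∂μ, 0 ≤ τ ∧ τ < 1)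
    (T : Finset ℝ) (hT : ∀ θ ∈ T, Real.sin θ ≠ 0) {ε : ℝ} (hε : 0 < ε) :
    ∃ (n : ℕ) (w t : Fin n → ℝ), (∀ i, 0 ≤ w i) ∧ (∀ i, 0 < t i ∧ t i < 1) ∧
      ∀ θ ∈ T, |(∫ τ, 1 / den τ θ ∂μ) - ∑ i, w i * (1 / den (t i) θ)| ≤ ε := by
  set M : ℝ := μ.real univ with hM
  have hM0 : 0 ≤ M := measureReal_nonneg
  obtain ⟨δ, hδ, hmod⟩ := common_modulus T hT (ε := ε / (M + 1)) (by positivity)
  obtain ⟨N, hN⟩ := exists_nat_gt (1 / δ)
  have hNpos : (0:ℝ) < N := lt_trans (by positivity) hN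
  have hdN : 1 / (N:ℝ) < δ := by
    rw [div_lt_iff₀ hδ] at hN
    rw [div_lt_iff₀ hNpos]; linarith
  set I : Fin N → Set ℝ := fun i => Ico ((i:ℝ) / N) (((i:ℝ) + 1) / N) with hI
  set t : Fin N → ℝ := fun i => ((i:ℝ) + 1 / 2) / N with ht
  have hI' : ∀ i, MeasurableSet (I i) := fun i => measurableSet_Ico
  have htpos : ∀ i, 0 < t i ∧ t i < 1 := by
    intro i
    have hi : ((i:ℕ):ℝ) + 1 ≤ N := by exact_mod_cast i.2
    constructor
    · simp only [ht]; positivity
    · simp only [ht]; rw [div_lt_one hNpos]; linarith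
  refine ⟨N, fun i => μ.real (I i), t, fun i => measureReal_nonneg, htpos, ?_⟩
  intro θ hθ
  have hsθ := hT θ hθ
  set f : ℝ → ℝ := fun τ => 1 / den τ θ with hf
  set g : ℝ → ℝ := fun τ => ∑ i : Fin N, (I i).indicator (fun _ => f (t i)) τ with hg
  have hgint : Integrable g μ := by
    apply integrable_finsetSum
    intro i _
    exact (integrable_const _).indicator (hI' i)
  have hgval : ∫ τ, g τ ∂μ = ∑ i : Fin N, μ.real (I i) * f (t i) := by
    rw [hg, integral_finsetSum]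
    · refine Finset.sum_congr rfl fun i _ => ?_
      rw [integral_indicator_const _ (hI' i), smul_eq_mul]
    · intro i _
      exact (integrable_const _).indicator (hI' i)
  rw [← hgval, ← integral_sub (integrable_den hsθ) hgint]
  have hpt : ∀ τ, 0 ≤ τ → τ < 1 → |f τ - g τ| ≤ ε / (M + 1) := by
    intro τ h0 h1
    set j : ℕ := ⌊τ * N⌋₊ with hj
    have hj1 : (j:ℝ) ≤ τ * N := Nat.floor_le (by positivity)
    have hj2 : τ * N < j + 1 := Nat.lt_floor_add_one _
    have hjN : j < N := by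
      have : (j:ℝ) < N := lt_of_le_of_lt hj1 (by nlinarith)
      exact_mod_cast this
    have hmem : τ ∈ I ⟨j, hjN⟩ := by
      simp only [hI, mem_Ico]
      exact ⟨by rw [div_le_iff₀ hNpos]; exact hj1, by rw [lt_div_iff₀ hNpos]; exact hj2⟩
    have hgτ : g τ = f (t ⟨j, hjN⟩) := by
      rw [hg]
      simp only
      rw [Finset.sum_eq_single (⟨j, hjN⟩ : Fin N)]
      · rw [indicator_of_mem hmem]
      · intro i _ hi
        apply indicator_of_notMem
        intro hmem'
        simp only [hI, mem_Ico] at hmem'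
        rw [div_le_iff₀ hNpos, lt_div_iff₀ hNpos] at hmem'
        apply hi
        have a1 : ((i:ℕ):ℝ) < j + 1 := by linarith [hmem'.1]
        have a2 : (j:ℝ) < ((i:ℕ):ℝ) + 1 := by linarith [hmem'.2]
        have b1 : (i:ℕ) < j + 1 := by exact_mod_cast a1
        have b2 : j < (i:ℕ) + 1 := by exact_mod_cast a2
        apply Fin.ext
        simp only
        omega
      · simp
    rw [hgτ]
    apply hmod θ hθ τ ⟨h0, h1.le⟩ _ ⟨(htpos _).1.le, (htpos _).2.le⟩
    simp only [ht]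
    have e1 : τ - ((j:ℝ) + 1 / 2) / N = (τ * N - (j + 1 / 2)) / N := by field_simp
    rw [e1, abs_div, abs_of_pos hNpos, div_lt_iff₀ hNpos]
    rw [div_lt_iff₀ hNpos] at hdN
    rw [abs_lt]
    constructor <;> nlinarith
  calc |∫ τ, (f τ - g τ) ∂μ| = ‖∫ τ, (f τ - g τ) ∂μ‖ := (Real.norm_eq_abs _).symm
    _ ≤ (ε / (M + 1)) * μ.real univ := by
        apply norm_integral_le_of_norm_le_const
        filter_upwards [hs] with τ hτ
        exact hpt τ hτ.1 hτ.2
    _ ≤ ε := by
        rw [← hM, div_mul_eq_mul_div, div_le_iff₀ (by positivity)]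
        nlinarith

/-- `1/den` as a Stieltjes kernel in `X = 2 - 2 cos θ`. -/
theorem inv_den_eq {τ θ : ℝ} (h0 : 0 < τ) (h1 : τ < 1) :
    1 / den τ θ = (1 / τ) / ((1 - τ) ^ 2 / τ + (2 - 2 * Real.cos θ)) := by
  have p := den_pos' (θ := θ) h0.le h1
  have hX : 0 ≤ 2 - 2 * Real.cos θ := by linarith [Real.cos_le_one θ]
  have h2 : 0 < (1 - τ) ^ 2 := by have : 0 < 1 - τ := by linarith
                                  positivity
  have h3 : 0 < (1 - τ) ^ 2 / τ + (2 - 2 * Real.cos θ) := by positivity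
  unfold den at p ⊢
  field_simp

end Vale.Agent.P153.Iso
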