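import Mathlib
import Vale.Agent.P153.Iso.Riem

/-!
# B5, part 3: the upper density (limsup of ball averages)
-/

open MeasureTheory Filter Topology Set Metric
open scoped ENNReal

namespace Vale.Agent.P153.Iso

/-- Ball average. -/
noncomputable def av (φ : ℂ → ℝ) (z : ℂ) (s : ℝ) : ℝ≥0∞ :=
  (∫⁻ w in closedBall z s, ENNReal.ofReal (φ w)) / volume (closedBall z s)

/-- Upper density. -/
noncomputable def ub (φ : ℂ → ℝ) (z : ℂ) : ℝ≥0∞ := limsup (fun s => av φ z s) (𝓝[>] 0)

theorem vol_ball_ne_zero (z : ℂ) {s : ℝ} (hs : 0 < s) : volume (closedBall z s) ≠ 0 :=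
  (measure_closedBall_pos volume z hs).ne'

theorem vol_ball_ne_top (z : ℂ) (s : ℝ) : volume (closedBall z s) ≠ ∞ := measure_closedBall_lt_top.ne

theorem av_add {φ : ℂ → ℝ} {z v : ℂ} {s : ℝ} :
    av φ (z + v) s = (∫⁻ w in closedBall z s, ENNReal.ofReal (φ (w + v))) / volume (closedBall z s) := by
  unfold av
  congr 1
  · rw [← lintegral_indicator measurableSet_closedBall, ← lintegral_indicator measurableSet_closedBall,
      ← lintegral_add_right_eq_self _ v]
    apply lintegral_congr
    intro w
    by_cases hw : w ∈ closedBall z s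
    · have : w + v ∈ closedBall (z + v) s := by
        rw [mem_closedBall] at hw ⊢
        rwa [dist_add_right]
      rw [indicator_of_mem hw, indicator_of_mem this]
    · have : w + v ∉ closedBall (z + v) s := by
        rw [mem_closedBall] at hw ⊢
        rwa [dist_add_right]
      rw [indicator_of_notMem hw, indicator_of_notMem this]
  · rw [Measure.addHaar_closedBall_center volume (z + v) s, Measure.addHaar_closedBall_center volume z s]

/-- Translation inequality. -/
theorem ub_add_le {φ : ℂ → ℝ} {z v : ℂ} {a b : ℝ≥0∞} {s0 : ℝ} (hs0 : 0 < s0) (ha : a ≠ ∞)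
    (hm : Measurable φ)
    (h : ∀ᵐ w : ℂ, w ∈ closedBall z s0 →
      ENNReal.ofReal (φ (w + v)) ≤ a * ENNReal.ofReal (φ w) + b) :
    ub φ (z + v) ≤ a * ub φ z + b := by
  have hav : ∀ s, 0 < s → s ≤ s0 → av φ (z + v) s ≤ a * av φ z s + b := by
    intro s hs hss
    rw [av_add]
    have h1 : ∫⁻ w in closedBall z s, ENNReal.ofReal (φ (w + v)) ≤
        ∫⁻ w in closedBall z s, (a * ENNReal.ofReal (φ w) + b) := by
      apply setLIntegral_mono_ae
      · exact ((hm.ennreal_ofReal.const_mul a).add_const b).aemeasurable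
      · filter_upwards [h] with w hw hws
        exact hw (closedBall_subset_closedBall hss hws)
    have h2 : ∫⁻ w in closedBall z s, (a * ENNReal.ofReal (φ w) + b) =
        a * (∫⁻ w in closedBall z s, ENNReal.ofReal (φ w)) + b * volume (closedBall z s) := by
      rw [lintegral_add_right _ measurable_const, lintegral_const_mul _ hm.ennreal_ofReal,
        lintegral_const, Measure.restrict_apply_univ]
    rw [h2] at h1
    calc (∫⁻ w in closedBall z s, ENNReal.ofReal (φ (w + v))) / volume (closedBall z s)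
        ≤ (a * (∫⁻ w in closedBall z s, ENNReal.ofReal (φ w)) + b * volume (closedBall z s)) /
            volume (closedBall z s) := by gcongr
      _ = a * av φ z s + b := by
          rw [ENNReal.add_div, mul_div_assoc]
          congr 1
          rw [mul_div_assoc, ENNReal.div_self (vol_ball_ne_zero z hs) (vol_ball_ne_top z s),
            mul_one]
  have hev : ∀ᶠ s in 𝓝[>] (0:ℝ), av φ (z + v) s ≤ a * av φ z s + b := by
    filter_upwards [Ioo_mem_nhdsGT hs0] with s hs
    exact hav s hs.1 hs.2.le
  unfold ub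
  calc limsup (fun s => av φ (z + v) s) (𝓝[>] 0)
      ≤ limsup (fun s => a * av φ z s + b) (𝓝[>] 0) := limsup_le_limsup hev
    _ = a * limsup (fun s => av φ z s) (𝓝[>] 0) + b := by
        have hmono : Monotone fun x : ℝ≥0∞ => a * x + b := by
          intro x y hxy
          simp only
          gcongr
        have hcont : Continuous fun x : ℝ≥0∞ => a * x + b :=
          (ENNReal.continuous_const_mul ha).add continuous_const
        exact (hmono.map_limsup_of_continuousAt (F := 𝓝[>] (0:ℝ)) (fun s => av φ z s)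
          hcont.continuousAt).symm

/-- Upper bound. -/
theorem ub_le {φ : ℂ → ℝ} {z : ℂ} {b : ℝ≥0∞} {s0 : ℝ} (hs0 : 0 < s0)
    (h : ∀ᵐ w : ℂ, w ∈ closedBall z s0 → ENNReal.ofReal (φ w) ≤ b) : ub φ z ≤ b := by
  have hev : ∀ᶠ s in 𝓝[>] (0:ℝ), av φ z s ≤ b := by
    filter_upwards [Ioo_mem_nhdsGT hs0] with s hs
    unfold av
    apply ENNReal.div_le_of_le_mul
    calc ∫⁻ w in closedBall z s, ENNReal.ofReal (φ w) ≤ ∫⁻ w in closedBall z s, b := by
          apply setLIntegral_mono_ae measurable_const.aemeasurable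
          filter_upwards [h] with w hw hws
          exact hw (closedBall_subset_closedBall hs.2.le hws)
      _ = b * volume (closedBall z s) := by rw [lintegral_const, Measure.restrict_apply_univ]
  unfold ub
  calc limsup (fun s => av φ z s) (𝓝[>] 0) ≤ limsup (fun _ => b) (𝓝[>] (0:ℝ)) :=
        limsup_le_limsup hev
    _ = b := limsup_const b

/-- Invariance under isometries. -/
theorem ub_isometry {φ : ℂ → ℝ} (hm : Measurable φ) (T : ℂ ≃ₗᵢ[ℝ] ℂ)
    (h : ∀ᵐ w : ℂ, φ (T w) = φ w) (z : ℂ) : ub φ (T z) = ub φ z := by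
  unfold ub
  congr 1
  funext s
  unfold av
  have hmp : MeasurePreserving T volume volume := T.measurePreserving
  have hpre : T ⁻¹' (closedBall (T z) s) = closedBall z s := T.preimage_closedBall (T z) s |>.trans (by simp)
  congr 1
  · rw [← hmp.setLIntegral_comp_preimage measurableSet_closedBall hm.ennreal_ofReal, hpre]
    apply lintegral_congr_ae
    filter_upwards [ae_restrict_of_ae h] with w hw
    rw [hw]
  · rw [Measure.addHaar_closedBall_center volume (T z) s, Measure.addHaar_closedBall_center volume z s]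

/-- Lebesgue differentiation. -/
theorem ub_eq_ae {φ : ℂ → ℝ} (hm : Measurable φ) (hnn : ∀ z, 0 ≤ φ z) {ρ : ℝ}
    (hb : ∀ η, 0 < η → ∃ M : ℝ, ∀ᵐ w : ℂ, η < ‖w‖ → ‖w‖ < ρ → φ w ≤ M) :
    ∀ᵐ z : ℂ, 0 < ‖z‖ → ‖z‖ < ρ → ub φ z = ENNReal.ofReal (φ z) := by
  set A : ℕ → Set ℂ := fun n => {w | 1 / ((n:ℝ) + 1) < ‖w‖ ∧ ‖w‖ < ρ} with hA
  have hAo : ∀ n, IsOpen (A n) := fun n =>
    (isOpen_lt continuous_const continuous_norm).inter (isOpen_lt continuous_norm continuous_const)
  have hAm : ∀ n, MeasurableSet (A n) := fun n => (hAo n).measurableSet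
  have hint : ∀ n, Integrable ((A n).indicator φ) := by
    intro n
    obtain ⟨M, hM⟩ := hb (1 / ((n:ℝ) + 1)) (by positivity)
    rw [integrable_indicator_iff (hAm n)]
    have hfin : volume (A n) < ∞ := by
      refine lt_of_le_of_lt (measure_mono (t := closedBall 0 ρ) ?_) measure_closedBall_lt_top
      intro w hw
      rw [mem_closedBall, dist_zero_right]
      exact hw.2.le
    haveI : IsFiniteMeasure (volume.restrict (A n)) := ⟨by rwa [Measure.restrict_apply_univ]⟩
    refine Integrable.of_bound (C := M) hm.aestronglyMeasurable ?_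
    rw [ae_restrict_iff' (hAm n)]
    filter_upwards [hM] with w hw hwA
    rw [Real.norm_of_nonneg (hnn w)]
    exact hw hwA.1 hwA.2
  have hL : ∀ n, ∀ᵐ z : ℂ, Tendsto (fun s => ⨍ y in closedBall z s, (A n).indicator φ y)
      (𝓝[>] (0:ℝ)) (𝓝 ((A n).indicator φ z)) := by
    intro n
    filter_upwards [IsUnifLocDoublingMeasure.ae_tendsto_average volume (hint n).locallyIntegrable 1]
      with z hz
    refine hz (fun _ => z) (fun s => s) tendsto_id ?_
    filter_upwards [self_mem_nhdsWithin] with s hs
    simp only [one_mul]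
    exact mem_closedBall_self (le_of_lt hs)
  rw [← ae_all_iff] at hL
  filter_upwards [hL] with z hz h0 h1
  obtain ⟨n, hn⟩ := exists_nat_one_div_lt h0
  have hzA : z ∈ A n := ⟨hn, h1⟩
  have hlim := hz n
  rw [indicator_of_mem hzA] at hlim
  obtain ⟨s0, hs0, hsub⟩ := Metric.isOpen_iff.1 (hAo n) z hzA
  have hlim2 : Tendsto (fun s => av φ z s) (𝓝[>] (0:ℝ)) (𝓝 (ENNReal.ofReal (φ z))) := by
    refine (ENNReal.tendsto_ofReal hlim).congr' ?_
    filter_upwards [Ioo_mem_nhdsGT hs0] with s hs
    have hss : closedBall z s ⊆ A n := (closedBall_subset_ball hs.2).trans hsub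
    unfold av
    rw [setAverage_eq, smul_eq_mul]
    have e1 : ∫ y in closedBall z s, (A n).indicator φ y = ∫ y in closedBall z s, φ y := by
      apply setIntegral_congr_fun measurableSet_closedBall
      intro y hy
      exact indicator_of_mem (hss hy) φ
    have hi : IntegrableOn φ (closedBall z s) := by
      have := (hint n).integrableOn (s := closedBall z s)
      refine this.congr_fun ?_ measurableSet_closedBall
      intro y hy
      exact indicator_of_mem (hss hy) φ
    rw [e1, ENNReal.ofReal_mul (by positivity),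
      ofReal_integral_eq_lintegral_ofReal hi (Eventually.of_forall hnn),
      ENNReal.div_eq_inv_mul]
    congr 1
    rw [measureReal_def, ENNReal.ofReal_inv_of_pos
      (ENNReal.toReal_pos (vol_ball_ne_zero z hs.1) (vol_ball_ne_top z s)),
      ENNReal.ofReal_toReal (vol_ball_ne_top z s)]
  exact hlim2.limsup_eq

end Vale.Agent.P153.Iso
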