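import Mathlib
import Vale.Agent.P153.Iso.UpDens

/-!
# B5, part 4: translation inequalities for the upper density
-/

open MeasureTheory Filter Topology Set Metric
open scoped ENNReal

namespace Vale.Agent.P153.Iso

/-- From a.e. real part to a.e. complex number. -/
theorem ae_re {P : ℝ → Prop} (h : ∀ᵐ x : ℝ, P x) : ∀ᵐ w : ℂ, P w.re := by
  have h1 : ∀ᵐ p : ℝ × ℝ, P p.1 := Measure.quasiMeasurePreserving_fst.ae h
  exact (Complex.volume_preserving_equiv_real_prod.quasiMeasurePreserving).ae h1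

theorem ae_add {P : ℂ → Prop} (v : ℂ) (h : ∀ᵐ w : ℂ, P w) : ∀ᵐ w : ℂ, P (w + v) :=
  (measurePreserving_add_right volume v).quasiMeasurePreserving.ae h

theorem sqrt3_lt : √(3:ℝ) < 1.8 := by
  rw [Real.sqrt_lt' (by norm_num)]; norm_num

theorem sqrt3_gt : (1.7:ℝ) < √3 := by
  rw [Real.lt_sqrt (by norm_num)]; norm_num

theorem ratio_bound {y a t u : ℝ} (hy : 0 < y) (hu0 : 0 ≤ u) (hu4 : u ≤ 1 / 4)
    (ha : 7 / 8 * y ≤ a) (ht : t = -(u * y)) : (a / (a + t)) ^ 2 ≤ 1 + 12 * u := by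
  have ha0 : 0 < a := by linarith
  have huy : u * y ≤ 1 / 4 * y := mul_le_mul_of_nonneg_right hu4 hy.le
  have hat : 0 < a + t := by rw [ht]; linarith
  have hlow : a * (1 - 8 / 7 * u) ≤ a + t := by
    rw [ht]
    have : u * (7 / 8 * y) ≤ u * a := mul_le_mul_of_nonneg_left ha hu0
    linarith
  have hlow0 : 0 ≤ a * (1 - 8 / 7 * u) := mul_nonneg ha0.le (by linarith)
  have hsq := pow_le_pow_left₀ hlow0 hlow 2
  have hpoly : 1 ≤ (1 + 12 * u) * (1 - 8 / 7 * u) ^ 2 := by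
    have e : (1 + 12 * u) * (1 - 8 / 7 * u) ^ 2 - 1
        = u * (68 / 7 - 1280 / 49 * u + 768 / 49 * u ^ 2) := by ring
    have : 0 ≤ u * (68 / 7 - 1280 / 49 * u + 768 / 49 * u ^ 2) := by
      apply mul_nonneg hu0
      nlinarith [sq_nonneg u]
    linarith
  rw [div_pow, div_le_iff₀ (by positivity)]
  calc a ^ 2 = a ^ 2 * 1 := by ring
    _ ≤ a ^ 2 * ((1 + 12 * u) * (1 - 8 / 7 * u) ^ 2) :=
        mul_le_mul_of_nonneg_left hpoly (by positivity)
    _ = (1 + 12 * u) * (a * (1 - 8 / 7 * u)) ^ 2 := by ring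
    _ ≤ _ := mul_le_mul_of_nonneg_left hsq (by positivity)

namespace DensHyp

variable {φ : ℂ → ℝ} {m : ℝ → Measure ℝ} {C ρ : ℝ}

theorem C_nonneg (h : DensHyp φ m C ρ) : 0 ≤ C := by
  have h1 := h.rep
  by_contra hC
  push Not at hC
  have h2 : ∀ᵐ z : ℂ, z ∉ ball (0:ℂ) ρ := by
    filter_upwards [h1] with z hz hlt
    rw [mem_ball, dist_zero_right] at hlt
    have h3 := hz hlt
    have h4 := abs_nonneg (φ z - Psi m z.re z.im)
    linarith
  have h3 : volume (ball (0:ℂ) ρ) = 0 := measure_eq_zero_iff_ae_notMem.2 h2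
  exact (measure_ball_pos volume (0:ℂ) h.rho_pos).ne' h3

/-- The good properties of a.e. point. -/
theorem good (h : DensHyp φ m C ρ) : ∀ᵐ w : ℂ, ‖w‖ < ρ →
    (∀ᵐ τ ∂(m w.re), 0 ≤ τ ∧ τ < 1) ∧ IsFiniteMeasure (m w.re) ∧
      |φ w - Psi m w.re w.im| ≤ C := by
  filter_upwards [ae_re h.supp, ae_re h.fin, h.rep] with w h1 h2 h3 hw
  refine ⟨h1, ⟨?_⟩, h3 hw⟩
  exact lt_top_iff_ne_top.2 (h2 (lt_of_le_of_lt (Complex.abs_re_le_norm w) hw))

/-- Translation by `t i`, a.e. form. -/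
theorem transl_ae (h : DensHyp φ m C ρ) {z : ℂ} {t : ℝ} (hy : 0 < z.im) (ht : |t| ≤ z.im / 4)
    (hz : 2 * ‖z‖ < ρ) (hz1 : ‖z‖ ≤ 1) :
    ∀ᵐ w : ℂ, w ∈ closedBall z (z.im / 8) →
      φ (w + t * Complex.I) ≤ (1 + 12 * |t| / z.im) * φ w + 5 * C := by
  have hC := h.C_nonneg
  filter_upwards [h.good, ae_add (t * Complex.I) h.good] with w hw1 hw2 hw
  rw [mem_closedBall, dist_eq_norm] at hw
  have him : |w.im - z.im| ≤ z.im / 8 := by
    have := Complex.abs_im_le_norm (w - z)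
    rw [Complex.sub_im] at this
    exact this.trans hw
  have hzim : z.im ≤ ‖z‖ := (le_abs_self _).trans (Complex.abs_im_le_norm z)
  have hwn : ‖w‖ ≤ ‖z‖ + z.im / 8 := by
    calc ‖w‖ = ‖z + (w - z)‖ := by congr 1; ring
      _ ≤ ‖z‖ + ‖w - z‖ := norm_add_le _ _
      _ ≤ _ := by linarith
  have hwn' : ‖w + t * Complex.I‖ ≤ ‖z‖ + z.im / 8 + z.im / 4 := by
    calc ‖w + t * Complex.I‖ ≤ ‖w‖ + ‖(t:ℂ) * Complex.I‖ := norm_add_le _ _
      _ = ‖w‖ + |t| := by simp
      _ ≤ _ := by linarith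
  obtain ⟨hs, hf, h1⟩ := hw1 (by linarith)
  obtain ⟨-, -, h2⟩ := hw2 (by linarith)
  have hre : (w + t * Complex.I).re = w.re := by simp
  have him2 : (w + t * Complex.I).im = w.im + t := by simp
  rw [hre, him2] at h2
  rw [abs_le] at him ht h1 h2
  have s3 := sqrt3_lt
  have s3p : 0 < √(3:ℝ) := by positivity
  have hpi := Real.pi_gt_d2
  have hwim : 0 < w.im := by linarith
  have hwt : 0 < w.im + t := by linarith
  have hφ := h.nonneg w
  have hψ0 : 0 ≤ Psi m w.re w.im := psi_nonneg hs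
  have bound : ∀ y : ℝ, y ≤ 3 / 2 → √3 * y < Real.pi := by
    intro y hy
    nlinarith
  rcases le_total 0 t with htn | htn
  · -- up
    have h3 : Psi m w.re (w.im + t) ≤ Psi m w.re w.im := by
      unfold Psi
      exact psi_anti hs (by positivity) (mul_le_mul_of_nonneg_left (by linarith) s3p.le)
        (bound _ (by linarith))
    have h4 : 0 ≤ 12 * |t| / z.im * φ w := by positivity
    have h5 : (1 + 12 * |t| / z.im) * φ w = φ w + 12 * |t| / z.im * φ w := by ring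
    linarith [h1.1, h1.2, h2.1, h2.2]
  · -- down
    have h3 : Psi m w.re (w.im + t) ≤ (w.im / (w.im + t)) ^ 2 * Psi m w.re w.im := by
      unfold Psi
      have := psi_le (μ := m w.re) (θ := √3 * (w.im + t)) (θ' := √3 * w.im) hs (by positivity)
        (mul_le_mul_of_nonneg_left (by linarith) s3p.le) (bound _ (by linarith))
      have e : (√3 * w.im) / (√3 * (w.im + t)) = w.im / (w.im + t) := by
        field_simp
      rwa [e] at this
    have habs : |t| = -t := abs_of_nonpos htn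
    set u : ℝ := -t / z.im with hu
    have hu0 : 0 ≤ u := by rw [hu]; exact div_nonneg (by linarith) hy.le
    have htu : t = -(u * z.im) := by rw [hu]; field_simp
    have hu4 : u ≤ 1 / 4 := by rw [hu, div_le_iff₀ hy]; linarith
    have h12 : 12 * |t| / z.im = 12 * u := by rw [habs, hu]; ring
    rw [h12]
    have h5 : (w.im / (w.im + t)) ^ 2 ≤ 1 + 12 * u :=
      ratio_bound hy hu0 hu4 (by linarith) htu
    have h8 : (w.im / (w.im + t)) ^ 2 * Psi m w.re w.im ≤ (1 + 12 * u) * (φ w + C) := by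
      apply mul_le_mul h5 (by linarith [h1.1]) hψ0 (by positivity)
    have h9 : 12 * u * C ≤ 3 * C := mul_le_mul_of_nonneg_right (by linarith) hC
    have h10 : (1 + 12 * u) * (φ w + C) = (1 + 12 * u) * φ w + C + 12 * u * C := by ring
    linarith [h2.2]

/-- Translation by `t i`, upper density. -/
theorem ub_transl (h : DensHyp φ m C ρ) {z : ℂ} {t : ℝ} (hy : 0 < z.im) (ht : |t| ≤ z.im / 4)
    (hz : 2 * ‖z‖ < ρ) (hz1 : ‖z‖ ≤ 1) :
    ub φ (z + t * Complex.I) ≤ ENNReal.ofReal (1 + 12 * |t| / z.im) * ub φ z +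
      ENNReal.ofReal (5 * C) := by
  have hC := h.C_nonneg
  refine ub_add_le (s0 := z.im / 8) (by positivity) ENNReal.ofReal_ne_top h.meas ?_
  filter_upwards [h.transl_ae hy ht hz hz1] with w hw hwb
  rw [← ENNReal.ofReal_mul (by positivity), ← ENNReal.ofReal_add
    (mul_nonneg (by positivity) (h.nonneg w)) (by positivity)]
  exact ENNReal.ofReal_le_ofReal (hw hwb)

end DensHyp

end Vale.Agent.P153.Iso
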