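import Mathlib
import Vale.Agent.P153.Iso.Transl

/-!
# B5, part 5: symmetry and equicontinuity of the upper density
-/

open MeasureTheory Filter Topology Set Metric
open scoped ENNReal

namespace Vale.Agent.P153.Iso

theorem sqrt3_sq : √(3:ℝ) ^ 2 = 3 := Real.sq_sqrt (by norm_num)

theorem norm_om : ‖om‖ = 1 := by
  rw [Complex.norm_def, Complex.normSq_apply]
  have : om.re * om.re + om.im * om.im = 1 := by
    simp only [om]
    nlinarith [sqrt3_sq]
  rw [this, Real.sqrt_one]

theorem om_mul_re (z : ℂ) : (om * z).re = z.re / 2 - √3 / 2 * z.im := by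
  simp only [om, Complex.mul_re]; ring

theorem om_mul_im (z : ℂ) : (om * z).im = √3 / 2 * z.re + z.im / 2 := by
  simp only [om, Complex.mul_im]; ring

/-- Real upper density. -/
noncomputable def U (φ : ℂ → ℝ) (z : ℂ) : ℝ := (ub φ z).toReal

theorem U_nonneg (φ : ℂ → ℝ) (z : ℂ) : 0 ≤ U φ z := ENNReal.toReal_nonneg

/-- Induction over the fundamental sector `0 ≤ θ ≤ 30°`. -/
theorem sector_induct {P : ℂ → Prop} (hrot : ∀ z, P (om * z) → P z)
    (hrefl : ∀ z, P ((starRingEnd ℂ) z) → P z)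
    (hs : ∀ z : ℂ, 0 < z.re → 0 ≤ z.im → √3 * z.im ≤ z.re → P z) :
    ∀ z : ℂ, z ≠ 0 → P z := by
  have h3 := sqrt3_sq
  have hs3 : 0 < √(3:ℝ) := by positivity
  have hom2 : om * om = ⟨-1 / 2, √3 / 2⟩ := by
    apply Complex.ext
    · rw [om_mul_re]; simp only [om]; nlinarith
    · rw [om_mul_im]; simp only [om]; ring
  have hom3 : om * (om * om) = -1 := by
    rw [hom2]
    apply Complex.ext
    · rw [om_mul_re]; simp only [Complex.neg_re, Complex.one_re]; nlinarith
    · rw [om_mul_im]; simp only [Complex.neg_im, Complex.one_im]; ring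
  have hneg : ∀ z, P (-z) → P z := by
    intro z hz
    apply hrot; apply hrot; apply hrot
    have : om * (om * (om * z)) = -z := by
      calc om * (om * (om * z)) = (om * (om * om)) * z := by ring
        _ = -z := by rw [hom3]; ring
    rw [this]; exact hz
  -- inverse rotation
  have hinv : ∀ z w : ℂ, om * w = z → P w → P z := by
    intro z w hw hP
    have hz : w = -(om * (om * z)) := by
      rw [← hw]
      calc w = -(-1 * w) := by ring
        _ = -((om * (om * om)) * w) := by rw [hom3]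
        _ = _ := by ring
    rw [hz] at hP
    apply hrot; apply hrot
    apply hneg
    exact hP
  -- wide sector
  have hwide : ∀ z : ℂ, 0 < z.re → √3 * |z.im| ≤ z.re → P z := by
    intro z h0 h1
    rcases le_total 0 z.im with h | h
    · rw [abs_of_nonneg h] at h1
      exact hs z h0 h h1
    · rw [abs_of_nonpos h] at h1
      apply hrefl
      apply hs
      · simpa using h0
      · simp only [Complex.conj_im]; linarith
      · simp only [Complex.conj_im, Complex.conj_re]; linarith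
  -- first quadrant
  have hquad : ∀ z : ℂ, 0 ≤ z.re → 0 ≤ z.im → z ≠ 0 → P z := by
    intro z hx hy hz
    by_cases c : √3 * z.im ≤ z.re
    · apply hwide z _ (by rwa [abs_of_nonneg hy])
      rcases hx.lt_or_eq with h | h
      · exact h
      · exfalso
        rw [← h] at c
        have : z.im = 0 := by nlinarith
        exact hz (Complex.ext h.symm this)
    · push Not at c
      have hy0 : 0 < z.im := by
        by_contra hcon
        have : z.im = 0 := le_antisymm (not_lt.1 hcon) hy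
        rw [this] at c; simp at c; linarith
      set w : ℂ := ⟨z.re / 2 + √3 / 2 * z.im, -(√3 / 2) * z.re + z.im / 2⟩ with hw
      have hwz : om * w = z := by
        apply Complex.ext
        · rw [om_mul_re, hw]; simp only; nlinarith
        · rw [om_mul_im, hw]; simp only; nlinarith
      apply hinv z w hwz
      apply hwide
      · rw [hw]; simp only; positivity
      · rw [hw]; simp only
        rw [← abs_of_pos hs3, ← abs_mul, abs_of_pos hs3, abs_le]
        constructor
        · have : √3 * (-(√3 / 2) * z.re + z.im / 2) = -(√3 ^ 2 / 2) * z.re + √3 / 2 * z.im := by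
            ring
          rw [this, h3]; nlinarith
        · have : √3 * (-(√3 / 2) * z.re + z.im / 2) = -(√3 ^ 2 / 2) * z.re + √3 / 2 * z.im := by
            ring
          rw [this, h3]; nlinarith
  intro z hz
  rcases le_total 0 z.re with hx | hx <;> rcases le_total 0 z.im with hy | hy
  · exact hquad z hx hy hz
  · apply hrefl
    apply hquad
    · simpa using hx
    · simp only [Complex.conj_im]; linarith
    · simpa using hz
  · apply hneg
    apply hrefl
    apply hquad
    · simp only [Complex.conj_re, Complex.neg_re]; linarith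
    · simp only [Complex.conj_im, Complex.neg_im]; linarith
    · simpa using hz
  · apply hneg
    apply hquad
    · simp only [Complex.neg_re]; linarith
    · simp only [Complex.neg_im]; linarith
    · simpa using hz

namespace DensHyp

variable {φ : ℂ → ℝ} {m : ℝ → Measure ℝ} {C ρ : ℝ}

theorem ub_om (h : DensHyp φ m C ρ) (z : ℂ) : ub φ (om * z) = ub φ z := by
  have hc : om ∈ Submonoid.unitSphere ℂ := by
    rw [Submonoid.unitSphere]
    simp [norm_om]
  set c : Circle := ⟨om, hc⟩ with hcdef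
  have hT : ∀ w, rotation c w = om * w := fun w => rotation_apply c w
  have := ub_isometry h.meas (rotation c) (by
    filter_upwards [h.rot] with w hw
    rw [hT]; exact hw) z
  rwa [hT] at this

theorem ub_conj (h : DensHyp φ m C ρ) (z : ℂ) : ub φ ((starRingEnd ℂ) z) = ub φ z := by
  have := ub_isometry h.meas Complex.conjLIE (by
    filter_upwards [h.refl] with w hw
    rw [Complex.conjLIE_apply]; exact hw) z
  rwa [Complex.conjLIE_apply] at this

theorem U_om (h : DensHyp φ m C ρ) (z : ℂ) : U φ (om * z) = U φ z := by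
  unfold U; rw [h.ub_om]

theorem U_conj (h : DensHyp φ m C ρ) (z : ℂ) : U φ ((starRingEnd ℂ) z) = U φ z := by
  unfold U; rw [h.ub_conj]

theorem ub_bdd (h : DensHyp φ m C ρ) {z : ℂ} (hz0 : z ≠ 0) (hz : 2 * ‖z‖ < ρ) :
    ub φ z ≤ ENNReal.ofReal (4 * C / ‖z‖ ^ 2) := by
  have hn : 0 < ‖z‖ := norm_pos_iff.2 hz0
  refine ub_le (s0 := ‖z‖ / 2) (by positivity) ?_
  filter_upwards [h.bdd] with w hw hwb
  rw [mem_closedBall, dist_eq_norm] at hwb
  have h1 : ‖z‖ / 2 ≤ ‖w‖ := by
    have : ‖z‖ ≤ ‖w‖ + ‖w - z‖ := by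
      calc ‖z‖ = ‖w - (w - z)‖ := by congr 1; ring
        _ ≤ _ := norm_sub_le _ _
    linarith
  have h2 : ‖w‖ < ρ := by
    calc ‖w‖ = ‖z + (w - z)‖ := by congr 1; ring
      _ ≤ ‖z‖ + ‖w - z‖ := norm_add_le _ _
      _ < ρ := by linarith
  apply ENNReal.ofReal_le_ofReal
  rw [le_div_iff₀ (by positivity)]
  have h3 := hw h2
  have h4 : ‖z‖ ^ 2 ≤ 4 * ‖w‖ ^ 2 := by nlinarith
  calc φ w * ‖z‖ ^ 2 ≤ φ w * (4 * ‖w‖ ^ 2) := mul_le_mul_of_nonneg_left h4 (h.nonneg w)
    _ = 4 * (‖w‖ ^ 2 * φ w) := by ring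
    _ ≤ 4 * C := by linarith

theorem ub_ne_top (h : DensHyp φ m C ρ) {z : ℂ} (hz0 : z ≠ 0) (hz : 2 * ‖z‖ < ρ) :
    ub φ z ≠ ∞ := ne_top_of_le_ne_top ENNReal.ofReal_ne_top (h.ub_bdd hz0 hz)

theorem U_bdd (h : DensHyp φ m C ρ) {z : ℂ} (hz0 : z ≠ 0) (hz : 2 * ‖z‖ < ρ) :
    U φ z ≤ 4 * C / ‖z‖ ^ 2 := by
  have hC := h.C_nonneg
  have h1 := h.ub_bdd hz0 hz
  unfold U
  have := ENNReal.toReal_mono ENNReal.ofReal_ne_top h1
  rwa [ENNReal.toReal_ofReal (by positivity)] at this

/-- Translation by `t i`, real form. -/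
theorem U_transl (h : DensHyp φ m C ρ) {z : ℂ} {t : ℝ} (hy : 0 < z.im) (ht : |t| ≤ z.im / 4)
    (hz : 2 * ‖z‖ < ρ) (hz1 : ‖z‖ ≤ 1) :
    U φ (z + t * Complex.I) ≤ (1 + 12 * |t| / z.im) * U φ z + 5 * C := by
  have hC := h.C_nonneg
  have hz0 : z ≠ 0 := by
    intro h0
    rw [h0] at hy; simp at hy
  have h1 := h.ub_transl hy ht hz hz1
  have h2 := h.ub_ne_top hz0 hz
  have h3 : ENNReal.ofReal (1 + 12 * |t| / z.im) * ub φ z + ENNReal.ofReal (5 * C) ≠ ∞ :=
    ENNReal.add_ne_top.2 ⟨ENNReal.mul_ne_top ENNReal.ofReal_ne_top h2, ENNReal.ofReal_ne_top⟩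
  have h4 := ENNReal.toReal_mono h3 h1
  rw [ENNReal.toReal_add (ENNReal.mul_ne_top ENNReal.ofReal_ne_top h2) ENNReal.ofReal_ne_top,
    ENNReal.toReal_mul, ENNReal.toReal_ofReal (by positivity),
    ENNReal.toReal_ofReal (by positivity)] at h4
  exact h4

theorem norm_om_mul (z : ℂ) : ‖om * z‖ = ‖z‖ := by rw [norm_mul, norm_om, one_mul]

theorem two_steps {C q f1 f2 A B D : ℝ} (hC : 0 ≤ C) (hq0 : 0 ≤ q) (hq1 : q ≤ 1 / 32)
    (hA : 0 ≤ A) (hB : 0 ≤ B) (h1 : f1 ≤ 48 * q) (h2 : f2 ≤ 52 * q)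
    (s1 : B ≤ (1 + f1) * A + 5 * C) (s2 : D ≤ (1 + f2) * B + 5 * C) :
    D ≤ (1 + 200 * q) * A + 20 * C := by
  have g1 : B ≤ (1 + 48 * q) * A + 5 * C := by
    have := mul_le_mul_of_nonneg_right h1 hA
    linarith
  have g2 : D ≤ (1 + 52 * q) * B + 5 * C := by
    have := mul_le_mul_of_nonneg_right h2 hB
    linarith
  have g3 : (1 + 52 * q) * B ≤ (1 + 52 * q) * ((1 + 48 * q) * A + 5 * C) :=
    mul_le_mul_of_nonneg_left g1 (by positivity)
  have g4 : (1 + 52 * q) * (1 + 48 * q) ≤ 1 + 200 * q := by nlinarith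
  have g5 := mul_le_mul_of_nonneg_right g4 hA
  have g6 : (1 + 52 * q) * (5 * C) ≤ 15 * C := by nlinarith
  have g7 : (1 + 52 * q) * ((1 + 48 * q) * A + 5 * C)
      = (1 + 52 * q) * (1 + 48 * q) * A + (1 + 52 * q) * (5 * C) := by ring
  linarith

/-- Two steps in the sector. -/
theorem U_equi_sector (h : DensHyp φ m C ρ) {z : ℂ} (h0 : 0 < z.re) (h1 : 0 ≤ z.im)
    (h2 : √3 * z.im ≤ z.re) (hz : 4 * ‖z‖ < ρ) (hz1 : 4 * ‖z‖ ≤ 1) {v : ℂ}
    (hv : ‖v‖ ≤ ‖z‖ / 32) :
    U φ (z + v) ≤ (1 + 200 * ‖v‖ / ‖z‖) * U φ z + 20 * C := by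
  have hC := h.C_nonneg
  have h3 := sqrt3_sq
  have s3l := sqrt3_gt
  have s3u := sqrt3_lt
  set N := ‖z‖ with hN
  have hN2 : N ^ 2 = z.re ^ 2 + z.im ^ 2 := by
    rw [hN, ← Complex.normSq_eq_norm_sq, Complex.normSq_apply]; ring
  have hNpos : 0 < N := norm_pos_iff.2 (by intro hh; rw [hh] at h0; simp at h0)
  have hx : √3 / 2 * N ≤ z.re := by
    apply le_of_sq_le_sq _ h0.le
    have : 3 * z.im ^ 2 ≤ z.re ^ 2 := by
      have := pow_le_pow_left₀ (by positivity) h2 2
      rw [mul_pow, h3] at this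
      exact this
    rw [mul_pow, div_pow, h3, hN2]; linarith
  set a : ℝ := v.re / √3 + v.im with ha
  set b : ℝ := v.re / √3 - v.im with hb
  have s3p : 0 < √(3:ℝ) := by positivity
  have hre := Complex.abs_re_le_norm v
  have him := Complex.abs_im_le_norm v
  have hre' : |v.re / √3| ≤ ‖v‖ := by
    rw [abs_div, abs_of_pos s3p, div_le_iff₀ s3p]
    nlinarith [norm_nonneg v]
  have haa : |a| ≤ 2 * ‖v‖ := by
    rw [ha]; exact (abs_add_le _ _).trans (by linarith)
  have hbb : |b| ≤ 2 * ‖v‖ := by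
    rw [hb]; exact (abs_sub _ _).trans (by linarith)
  set u2 : ℂ := ⟨√3 / 2, 1 / 2⟩ with hu2
  set u3 : ℂ := ⟨√3 / 2, -1 / 2⟩ with hu3
  have e2 : om * u2 = Complex.I := by
    apply Complex.ext
    · rw [om_mul_re, hu2]; simp only [Complex.I_re]; ring
    · rw [om_mul_im, hu2]; simp only [Complex.I_im]; nlinarith
  have e3 : om * u3 = u2 := by
    apply Complex.ext
    · rw [om_mul_re, hu3, hu2]; simp only; ring
    · rw [om_mul_im, hu3, hu2]; simp only; nlinarith
  have hva : v = a * u2 + b * u3 := by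
    apply Complex.ext
    · simp only [Complex.add_re, Complex.mul_re, Complex.ofReal_re, Complex.ofReal_im, hu2, hu3,
        ha, hb]
      field_simp; ring
    · simp only [Complex.add_im, Complex.mul_im, Complex.ofReal_re, Complex.ofReal_im, hu2, hu3,
        ha, hb]
      field_simp; ring
  -- step 1
  have i1 : N / 2 ≤ (om * z).im := by
    rw [om_mul_im]; nlinarith
  have s1 : U φ (z + a * u2) ≤ (1 + 12 * |a| / (om * z).im) * U φ z + 5 * C := by
    have := h.U_transl (z := om * z) (t := a) (by linarith) (by linarith)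
      (by rw [norm_om_mul]; linarith) (by rw [norm_om_mul]; linarith)
    rw [h.U_om] at this
    have e : om * z + a * Complex.I = om * (z + a * u2) := by
      rw [← e2]; ring
    rw [e, h.U_om] at this
    exact this
  -- step 2
  set z2 : ℂ := z + a * u2 with hz2
  have nu2 : ‖u2‖ = 1 := by
    have : ‖om * u2‖ = 1 := by rw [e2, Complex.norm_I]
    rwa [norm_om_mul] at this
  have nz2 : ‖z2‖ ≤ N + |a| := by
    rw [hz2]
    refine (norm_add_le _ _).trans ?_
    rw [norm_mul, nu2, mul_one, Complex.norm_real, Real.norm_eq_abs]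
  have i2 : 15 / 32 * N ≤ (om * (om * z2)).im := by
    have e : om * (om * z2) = om * (om * z) + a * (om * Complex.I) := by
      rw [hz2, ← e2]; ring
    rw [e, Complex.add_im, Complex.im_ofReal_mul, om_mul_im, om_mul_im, om_mul_im, om_mul_re,
      Complex.I_re, Complex.I_im]
    have : √3 / 2 * (z.re / 2 - √3 / 2 * z.im) + (√3 / 2 * z.re + z.im / 2) / 2
        = √3 / 2 * z.re - z.im / 2 := by linear_combination (-(z.im) / 4) * h3
    have hc : N / 2 ≤ √3 / 2 * z.re - z.im / 2 := by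
      have t1 : √3 * z.im ≤ z.re := h2
      have t2 : √3 * (√3 / 2 * z.re - z.im / 2) ≥ z.re := by
        have : √3 * (√3 / 2 * z.re - z.im / 2) = √3 ^ 2 / 2 * z.re - √3 * z.im / 2 := by ring
        rw [this, h3]; linarith
      have t3 : √3 * (N / 2) ≤ √3 * (√3 / 2 * z.re - z.im / 2) := by
        calc √3 * (N / 2) = √3 / 2 * N := by ring
          _ ≤ z.re := hx
          _ ≤ _ := t2
      exact le_of_mul_le_mul_left t3 s3p
    have habs := neg_abs_le a
    rw [this]
    linarith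
  have s2 : U φ (z2 + b * u3) ≤ (1 + 12 * |b| / (om * (om * z2)).im) * U φ z2 + 5 * C := by
    have := h.U_transl (z := om * (om * z2)) (t := b) (by linarith) (by linarith)
      (by rw [norm_om_mul, norm_om_mul]; linarith) (by rw [norm_om_mul, norm_om_mul]; linarith)
    rw [h.U_om, h.U_om] at this
    have e : om * (om * z2) + b * Complex.I = om * (om * (z2 + b * u3)) := by
      rw [← e2, ← e3]; ring
    rw [e, h.U_om, h.U_om] at this
    exact this
  have hzv : z + v = z2 + b * u3 := by rw [hz2]; nth_rewrite 1 [hva]; ring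
  rw [hzv]
  -- combine
  set q : ℝ := ‖v‖ / N with hq
  have hq0 : 0 ≤ q := by positivity
  have hq1 : q ≤ 1 / 32 := by rw [hq, div_le_iff₀ hNpos]; linarith
  have hqv : 200 * ‖v‖ / N = 200 * q := by rw [hq]; ring
  rw [hqv]
  have hvq : ‖v‖ = q * N := by rw [hq]; field_simp
  have f1 : 12 * |a| / (om * z).im ≤ 48 * q := by
    rw [div_le_iff₀ (by linarith)]
    have : 48 * q * (N / 2) ≤ 48 * q * (om * z).im := mul_le_mul_of_nonneg_left i1 (by positivity)
    linarith
  have f2 : 12 * |b| / (om * (om * z2)).im ≤ 52 * q := by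
    rw [div_le_iff₀ (by linarith)]
    have : 52 * q * (15 / 32 * N) ≤ 52 * q * (om * (om * z2)).im :=
      mul_le_mul_of_nonneg_left i2 (by positivity)
    have : 0 ≤ q * N := by positivity
    linarith
  exact two_steps hC hq0 hq1 (U_nonneg φ z) (U_nonneg φ z2) f1 f2 s1 s2

/-- Equicontinuity of the upper density. -/
theorem U_equi (h : DensHyp φ m C ρ) {z : ℂ} (hz0 : z ≠ 0) (hz : 4 * ‖z‖ < ρ)
    (hz1 : 4 * ‖z‖ ≤ 1) {v : ℂ} (hv : ‖v‖ ≤ ‖z‖ / 32) :
    U φ (z + v) ≤ (1 + 200 * ‖v‖ / ‖z‖) * U φ z + 20 * C := by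
  revert z
  have key : ∀ z : ℂ, z ≠ 0 → (4 * ‖z‖ < ρ → 4 * ‖z‖ ≤ 1 → ∀ v : ℂ, ‖v‖ ≤ ‖z‖ / 32 →
      U φ (z + v) ≤ (1 + 200 * ‖v‖ / ‖z‖) * U φ z + 20 * C) := by
    apply sector_induct
    · intro z hP h1 h2 v hv
      have := hP (by rwa [norm_om_mul]) (by rwa [norm_om_mul]) (om * v)
        (by rwa [norm_om_mul, norm_om_mul])
      rwa [← mul_add, h.U_om, h.U_om, norm_om_mul, norm_om_mul] at this
    · intro z hP h1 h2 v hv
      have hn : ∀ w : ℂ, ‖(starRingEnd ℂ) w‖ = ‖w‖ := fun w => Complex.norm_conj w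
      have := hP (by rwa [hn]) (by rwa [hn]) ((starRingEnd ℂ) v) (by rwa [hn, hn])
      rwa [← map_add, h.U_conj, h.U_conj, hn, hn] at this
    · intro z h0 h1 h2 hz hz1 v hv
      exact h.U_equi_sector h0 h1 h2 hz hz1 hv
  intro z hz0 hz hz1 hv
  exact key z hz0 hz hz1 v hv

end DensHyp

end Vale.Agent.P153.Iso
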