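import Mathlib
import Vale.Agent.P153.Iso.Equi

/-!
# B5, part 6: comparison of the upper density with the row function
-/

open MeasureTheory Filter Topology Set Metric
open scoped ENNReal

namespace Vale.Agent.P153.Iso

/-- `|z|² U(z)`. -/
noncomputable def Fz (φ : ℂ → ℝ) (z : ℂ) : ℝ := ‖z‖ ^ 2 * U φ z

theorem Fz_nonneg (φ : ℂ → ℝ) (z : ℂ) : 0 ≤ Fz φ z := mul_nonneg (by positivity) (U_nonneg φ z)

/-- From a.e. complex number to a.e. vertical line. -/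
theorem ae_ae {P : ℂ → Prop} (h : ∀ᵐ w : ℂ, P w) : ∀ᵐ x : ℝ, ∀ᵐ y : ℝ, P ⟨x, y⟩ := by
  have h1 : ∀ᵐ p : ℝ × ℝ, P (Complex.measurableEquivRealProd.symm p) :=
    (Complex.volume_preserving_equiv_real_prod.symm _).quasiMeasurePreserving.ae h
  have h2 := Measure.ae_ae_of_ae_prod (μ := (volume : Measure ℝ)) (ν := (volume : Measure ℝ)) h1
  filter_upwards [h2] with x hx
  filter_upwards [hx] with y hy
  exact hy

theorem exists_Ioo {P : ℝ → Prop} (h : ∀ᵐ y : ℝ, P y) {a b : ℝ} (hab : a < b) :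
    ∃ y, a < y ∧ y < b ∧ P y := by
  by_contra hcon
  push Not at hcon
  have h1 : ∀ᵐ y : ℝ, y ∉ Ioo a b := by
    filter_upwards [h] with y hy hmem
    exact hcon y hmem.1 hmem.2 hy
  have h2 : volume (Ioo a b) = 0 := measure_eq_zero_iff_ae_notMem.2 h1
  rw [Real.volume_Ioo, ENNReal.ofReal_eq_zero] at h2
  linarith

namespace DensHyp

variable {φ : ℂ → ℝ} {m : ℝ → Measure ℝ} {C ρ : ℝ}

theorem Fz_bdd (h : DensHyp φ m C ρ) {z : ℂ} (hz0 : z ≠ 0) (hz : 2 * ‖z‖ < ρ) :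
    Fz φ z ≤ 4 * C := by
  have hn : 0 < ‖z‖ := norm_pos_iff.2 hz0
  have := h.U_bdd hz0 hz
  rw [le_div_iff₀ (by positivity)] at this
  unfold Fz; linarith

theorem Fz_le (h : DensHyp φ m C ρ) {z w : ℂ} (hz0 : z ≠ 0) (hz : 4 * ‖z‖ < ρ)
    (hz1 : 4 * ‖z‖ ≤ 1) (hw : ‖w - z‖ ≤ ‖z‖ / 32) :
    Fz φ w ≤ Fz φ z + 1000 * C * (‖w - z‖ / ‖z‖ + ‖z‖ ^ 2) := by
  have hC := h.C_nonneg
  have hn : 0 < ‖z‖ := norm_pos_iff.2 hz0
  have h1 := h.U_equi hz0 hz hz1 hw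
  have e : z + (w - z) = w := by ring
  rw [e] at h1
  have hFb := h.Fz_bdd hz0 (by linarith)
  set q := ‖w - z‖ / ‖z‖ with hq
  have hq0 : 0 ≤ q := by positivity
  have hq1 : q ≤ 1 / 32 := by rw [hq, div_le_iff₀ hn]; linarith
  have hqn : ‖w - z‖ = q * ‖z‖ := by rw [hq]; field_simp
  have e2 : 200 * ‖w - z‖ / ‖z‖ = 200 * q := by rw [hq]; ring
  rw [e2] at h1
  have hw2 : ‖w‖ ≤ (1 + q) * ‖z‖ := by
    calc ‖w‖ = ‖z + (w - z)‖ := by rw [e]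
      _ ≤ ‖z‖ + ‖w - z‖ := norm_add_le _ _
      _ = (1 + q) * ‖z‖ := by rw [hqn]; ring
  have hw3 : ‖w‖ ^ 2 ≤ (1 + q) ^ 2 * ‖z‖ ^ 2 := by
    rw [← mul_pow]; exact pow_le_pow_left₀ (norm_nonneg w) hw2 2
  have hU := U_nonneg φ z
  have hN2 : 0 < ‖z‖ ^ 2 := by positivity
  calc Fz φ w = ‖w‖ ^ 2 * U φ w := rfl
    _ ≤ ((1 + q) ^ 2 * ‖z‖ ^ 2) * ((1 + 200 * q) * U φ z + 20 * C) :=
        mul_le_mul hw3 h1 (U_nonneg φ w) (by positivity)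
    _ = (1 + q) ^ 2 * (1 + 200 * q) * Fz φ z + (1 + q) ^ 2 * (20 * C) * ‖z‖ ^ 2 := by
        unfold Fz; ring
    _ ≤ (1 + 230 * q) * Fz φ z + 22 * C * ‖z‖ ^ 2 := by
        have b1 : (1 + q) ^ 2 ≤ 1 + 3 * q := by nlinarith
        have a1 : (1 + q) ^ 2 * (1 + 200 * q) ≤ 1 + 230 * q := by
          calc (1 + q) ^ 2 * (1 + 200 * q) ≤ (1 + 3 * q) * (1 + 200 * q) :=
                mul_le_mul_of_nonneg_right b1 (by positivity)
            _ ≤ 1 + 230 * q := by nlinarith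
        have a2 : (1 + q) ^ 2 * (20 * C) ≤ 22 * C := by
          have : (1 + q) ^ 2 ≤ 11 / 10 := by nlinarith
          nlinarith
        exact add_le_add (mul_le_mul_of_nonneg_right a1 (Fz_nonneg φ z))
          (mul_le_mul_of_nonneg_right a2 hN2.le)
    _ ≤ Fz φ z + 1000 * C * (q + ‖z‖ ^ 2) := by
        have a3 : 230 * q * Fz φ z ≤ 230 * q * (4 * C) :=
          mul_le_mul_of_nonneg_left hFb (by positivity)
        have a4 : 0 ≤ q * C := by positivity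
        have a5 : 0 ≤ C * ‖z‖ ^ 2 := by positivity
        nlinarith

/-- Algebra for `transfer`. -/
theorem transfer_alg {C t N Fzz Fw A B : ℝ} (hC : 0 ≤ C) (ht0 : 0 ≤ t) (ht : t ≤ 1 / 128)
    (hN : 0 ≤ N)
    (h1 : Fzz ≤ Fw + 1000 * C * (3 * t + 2 * N)) (h2 : Fw ≤ Fzz + 1000 * C * (3 * t + 2 * N))
    (h3 : |Fw - B| ≤ 2 * C * N) (hB : 0 ≤ B) (hBb : B ≤ 6 * C)
    (h4 : B * (1 - 4 * t) ≤ A) (h5 : A ≤ (1 + 4 * t) ^ 2 * B) :
    |Fzz - A| ≤ 4000 * C * (t + N) := by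
  rw [abs_le] at h3 ⊢
  have a1 : B * t ≤ 6 * C * t := mul_le_mul_of_nonneg_right hBb ht0
  have a2 : (1 + 4 * t) ^ 2 ≤ 1 + 9 * t := by nlinarith
  have a3 : (1 + 4 * t) ^ 2 * B ≤ (1 + 9 * t) * B := mul_le_mul_of_nonneg_right a2 hB
  have a4 : 0 ≤ C * t := by positivity
  have a5 : 0 ≤ C * N := by positivity
  constructor
  · nlinarith [h3.1, h3.2]
  · nlinarith [h3.1, h3.2]

/-- Lower comparison. -/
theorem lower_alg {t W Z P Q : ℝ} (ht0 : 0 ≤ t) (ht : t ≤ 1 / 128) (hW : 0 ≤ W) (hZ : 0 ≤ Z)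
    (hw_le : W ≤ (1 + 2 * t) * Z) (hP : 0 ≤ P) (p1 : P ≤ Q) :
    W ^ 2 * P * (1 - 4 * t) ≤ Z ^ 2 * Q := by
  have q1 : W ^ 2 * (1 - 4 * t) ≤ Z ^ 2 := by
    have : W ^ 2 ≤ ((1 + 2 * t) * Z) ^ 2 := pow_le_pow_left₀ hW hw_le 2
    have h14 : 0 ≤ 1 - 4 * t := by linarith
    calc W ^ 2 * (1 - 4 * t) ≤ ((1 + 2 * t) * Z) ^ 2 * (1 - 4 * t) :=
          mul_le_mul_of_nonneg_right this h14
      _ = ((1 + 2 * t) ^ 2 * (1 - 4 * t)) * Z ^ 2 := by ring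
      _ ≤ 1 * Z ^ 2 := by
          apply mul_le_mul_of_nonneg_right _ (by positivity)
          nlinarith [mul_nonneg ht0 ht0, mul_nonneg (mul_nonneg ht0 ht0) ht0]
      _ = Z ^ 2 := one_mul _
  calc W ^ 2 * P * (1 - 4 * t) = (W ^ 2 * (1 - 4 * t)) * P := by ring
    _ ≤ Z ^ 2 * P := mul_le_mul_of_nonneg_right q1 hP
    _ ≤ _ := mul_le_mul_of_nonneg_left p1 (by positivity)

/-- Upper comparison. -/
theorem upper_alg {t W Z P Q y y' : ℝ} (ht0 : 0 ≤ t) (ht : t ≤ 1 / 128) (hy : 0 < y)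
    (hy' : 0 ≤ y') (hyy : y' ≤ (1 + t) * y) (hZ : 0 ≤ Z)
    (hw_ge : (1 - 2 * t) * Z ≤ W) (hP : 0 ≤ P) (p2 : Q ≤ (y' / y) ^ 2 * P) :
    Z ^ 2 * Q ≤ (1 + 4 * t) ^ 2 * (W ^ 2 * P) := by
  have q2 : (y' / y) ^ 2 ≤ (1 + t) ^ 2 := by
    apply pow_le_pow_left₀ (by positivity)
    rw [div_le_iff₀ hy]; exact hyy
  have q3 : (1 + t) * Z ≤ (1 + 4 * t) * W := by
    have : (1 + 4 * t) * ((1 - 2 * t) * Z) ≤ (1 + 4 * t) * W :=
      mul_le_mul_of_nonneg_left hw_ge (by positivity)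
    have h5 : (1 + t) * Z ≤ (1 + 4 * t) * ((1 - 2 * t) * Z) := by
      rw [← mul_assoc]
      apply mul_le_mul_of_nonneg_right _ hZ
      nlinarith
    linarith
  have q4 : ((1 + t) * Z) ^ 2 ≤ ((1 + 4 * t) * W) ^ 2 :=
    pow_le_pow_left₀ (by positivity) q3 2
  calc Z ^ 2 * Q ≤ Z ^ 2 * ((1 + t) ^ 2 * P) := by
        apply mul_le_mul_of_nonneg_left _ (by positivity)
        exact p2.trans (mul_le_mul_of_nonneg_right q2 hP)
    _ = ((1 + t) * Z) ^ 2 * P := by ring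
    _ ≤ ((1 + 4 * t) * W) ^ 2 * P := mul_le_mul_of_nonneg_right q4 hP
    _ = _ := by ring

/-- **Transfer**: the upper density at `z` is close to the row function of a.e. nearby row. -/
theorem transfer (h : DensHyp φ m C ρ) {z : ℂ} {t : ℝ} (hy : 0 < z.im) (ht0 : 0 < t)
    (ht : t ≤ 1 / 128) (hz : 8 * ‖z‖ < ρ) (hz1 : 8 * ‖z‖ ≤ 1) :
    ∀ᵐ x' : ℝ, |x' - z.re| < t * z.im →
      |Fz φ z - ‖z‖ ^ 2 * Psi m x' z.im| ≤ 4000 * C * (t + ‖z‖ ^ 2) := by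
  have hC := h.C_nonneg
  have hz0 : z ≠ 0 := by
    intro h0
    rw [h0] at hy; simp at hy
  have hn : 0 < ‖z‖ := norm_pos_iff.2 hz0
  have hzim : z.im ≤ ‖z‖ := (le_abs_self _).trans (Complex.abs_im_le_norm z)
  have hloc : ∀ η, 0 < η → ∃ M : ℝ, ∀ᵐ w : ℂ, η < ‖w‖ → ‖w‖ < ρ → φ w ≤ M := by
    intro η hη
    refine ⟨C / η ^ 2, ?_⟩
    filter_upwards [h.bdd] with w hw h1 h2
    rw [le_div_iff₀ (by positivity)]
    have := hw h2
    have h3 : η ^ 2 ≤ ‖w‖ ^ 2 := pow_le_pow_left₀ hη.le h1.le 2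
    nlinarith [h.nonneg w]
  filter_upwards [ae_ae h.good, ae_ae (ub_eq_ae h.meas h.nonneg hloc)] with x' g1 g2 hx'
  obtain ⟨y', hy1, hy2, hg1, hg2⟩ := exists_Ioo (g1.and g2)
    (show z.im < z.im + t * z.im by nlinarith)
  set w : ℂ := ⟨x', y'⟩ with hw
  have hwz : ‖w - z‖ ≤ 2 * t * z.im := by
    refine (Complex.norm_le_abs_re_add_abs_im _).trans ?_
    rw [Complex.sub_re, Complex.sub_im, hw]
    simp only
    have : |y' - z.im| ≤ t * z.im := by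
      rw [abs_of_pos (by linarith)]; linarith
    linarith
  have hty : 2 * t * z.im ≤ 2 * t * ‖z‖ := mul_le_mul_of_nonneg_left hzim (by positivity)
  have hwzq : ‖w - z‖ / ‖z‖ ≤ 2 * t := by
    rw [div_le_iff₀ hn]; linarith
  have hw_le : ‖w‖ ≤ (1 + 2 * t) * ‖z‖ := by
    calc ‖w‖ = ‖z + (w - z)‖ := by congr 1; ring
      _ ≤ ‖z‖ + ‖w - z‖ := norm_add_le _ _
      _ ≤ (1 + 2 * t) * ‖z‖ := by linarith
  have hw_ge : (1 - 2 * t) * ‖z‖ ≤ ‖w‖ := by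
    have : ‖z‖ ≤ ‖w‖ + ‖w - z‖ := by
      calc ‖z‖ = ‖w - (w - z)‖ := by congr 1; ring
        _ ≤ _ := norm_sub_le _ _
    linarith
  have hwpos : 0 < ‖w‖ := lt_of_lt_of_le (mul_pos (by linarith) hn) hw_ge
  have hw0 : w ≠ 0 := norm_pos_iff.1 hwpos
  have htn : t * ‖z‖ ≤ 1 / 128 * ‖z‖ := mul_le_mul_of_nonneg_right ht hn.le
  have hw32 : ‖w‖ ≤ 33 / 32 * ‖z‖ := by linarith
  have hw31 : 31 / 32 * ‖z‖ ≤ ‖w‖ := by linarith
  have hw2 : ‖w‖ ^ 2 ≤ 2 * ‖z‖ ^ 2 := by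
    have := pow_le_pow_left₀ hwpos.le hw32 2
    rw [mul_pow] at this
    have h5 : 0 ≤ ‖z‖ ^ 2 := by positivity
    linarith
  obtain ⟨hs, hf, hrep⟩ := hg1 (by linarith)
  have hU : ub φ w = ENNReal.ofReal (φ w) := hg2 hwpos (by linarith)
  have hUφ : U φ w = φ w := by
    unfold U; rw [hU, ENNReal.toReal_ofReal (h.nonneg w)]
  -- F z and F w
  have hsmall : ‖w - z‖ ≤ ‖z‖ / 32 := by linarith
  have f1 : Fz φ w ≤ Fz φ z + 1000 * C * (3 * t + 2 * ‖z‖ ^ 2) := by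
    refine (h.Fz_le hz0 (by linarith) (by linarith) hsmall).trans ?_
    have : 1000 * C * (‖w - z‖ / ‖z‖ + ‖z‖ ^ 2) ≤ 1000 * C * (3 * t + 2 * ‖z‖ ^ 2) := by
      apply mul_le_mul_of_nonneg_left _ (by positivity)
      linarith [sq_nonneg ‖z‖]
    linarith
  have f2 : Fz φ z ≤ Fz φ w + 1000 * C * (3 * t + 2 * ‖z‖ ^ 2) := by
    have hsw : ‖z - w‖ ≤ ‖w‖ / 32 := by
      rw [norm_sub_rev]; linarith
    refine (h.Fz_le hw0 (by linarith) (by linarith) hsw).trans ?_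
    have h3 : ‖z - w‖ / ‖w‖ ≤ 3 * t := by
      rw [norm_sub_rev, div_le_iff₀ hwpos]
      have := mul_le_mul_of_nonneg_left hw31 ht0.le
      have h6 : 0 ≤ t * ‖z‖ := by positivity
      linarith
    have h4 := hw2
    have : 1000 * C * (‖z - w‖ / ‖w‖ + ‖w‖ ^ 2) ≤ 1000 * C * (3 * t + 2 * ‖z‖ ^ 2) := by
      apply mul_le_mul_of_nonneg_left _ (by positivity)
      linarith
    linarith
  -- the row function
  have hwre : w.re = x' := rfl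
  have hwim : w.im = y' := rfl
  have hψ0 : 0 ≤ Psi m x' y' := psi_nonneg hs
  have s3 := sqrt3_lt
  have s3p : 0 < √(3:ℝ) := by positivity
  have hpi := Real.pi_gt_d2
  have hypos : 0 < y' := by linarith
  have hy'1 : y' ≤ 1 := by nlinarith
  have hlt : √3 * y' < Real.pi := by nlinarith
  have p1 : Psi m x' y' ≤ Psi m x' z.im := by
    unfold Psi
    exact psi_anti hs (by positivity) (mul_le_mul_of_nonneg_left hy1.le s3p.le) hlt
  have p2 : Psi m x' z.im ≤ (y' / z.im) ^ 2 * Psi m x' y' := by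
    unfold Psi
    have := psi_le (μ := m x') (θ := √3 * z.im) (θ' := √3 * y') hs (by positivity)
      (mul_le_mul_of_nonneg_left hy1.le s3p.le) hlt
    have e : (√3 * y') / (√3 * z.im) = y' / z.im := by field_simp
    rwa [e] at this
  have hFw : Fz φ w = ‖w‖ ^ 2 * φ w := by unfold Fz; rw [hUφ]
  have hFwb := h.Fz_bdd hw0 (by linarith)
  have hw2' : ‖w‖ ^ 2 ≤ 1 := pow_le_one₀ hwpos.le (by linarith)
  have h3 : |Fz φ w - ‖w‖ ^ 2 * Psi m x' y'| ≤ 2 * C * ‖z‖ ^ 2 := by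
    rw [hFw, ← mul_sub, abs_mul, abs_of_nonneg (by positivity : (0:ℝ) ≤ ‖w‖ ^ 2)]
    calc ‖w‖ ^ 2 * |φ w - Psi m x' y'| ≤ (2 * ‖z‖ ^ 2) * C :=
          mul_le_mul hw2 hrep (abs_nonneg _) (by positivity)
      _ = _ := by ring
  have h3' : |Fz φ w - ‖w‖ ^ 2 * Psi m x' y'| ≤ C := by
    rw [hFw, ← mul_sub, abs_mul, abs_of_nonneg (by positivity : (0:ℝ) ≤ ‖w‖ ^ 2)]
    calc ‖w‖ ^ 2 * |φ w - Psi m x' y'| ≤ 1 * C :=
          mul_le_mul hw2' hrep (abs_nonneg _) (by norm_num)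
      _ = _ := by ring
  refine transfer_alg (B := ‖w‖ ^ 2 * Psi m x' y') (Fw := Fz φ w) hC ht0.le ht (by positivity)
    f2 f1 h3 (by positivity) ?_ ?_ ?_
  · rw [abs_le] at h3'
    linarith [h3'.1]
  · exact lower_alg ht0.le ht hwpos.le hn.le hw_le hψ0 p1
  · exact upper_alg ht0.le ht hy hypos.le (by linarith) hn.le hw_ge hψ0 p2

end DensHyp

end Vale.Agent.P153.Iso
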