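import Mathlib
import Vale.Agent.P153.Iso.Transfer
import Vale.Agent.P153.Iso.Riem

/-!
# B5, part 7: the axis limit and the Stieltjes property
-/

open MeasureTheory Filter Topology Set Metric
open scoped ENNReal BigOperators

namespace Vale.Agent.P153.Iso

theorem X_le (θ : ℝ) : 2 - 2 * Real.cos θ ≤ θ ^ 2 := by
  have := Real.one_sub_sq_div_two_le_cos (x := θ)
  linarith

theorem X_ge {θ : ℝ} (hθ : |θ| ≤ 1) : θ ^ 2 - 5 / 48 * θ ^ 4 ≤ 2 - 2 * Real.cos θ := by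
  have h := Real.cos_bound hθ
  rw [abs_le] at h
  have h4 : |θ| ^ 4 = θ ^ 4 := by
    rw [← abs_pow, abs_of_nonneg (by positivity)]
  rw [h4] at h
  linarith [h.2]

theorem X_le3 (t : ℝ) : 2 - 2 * Real.cos (√3 * t) ≤ 3 * t ^ 2 := by
  have h := X_le (√3 * t)
  rw [mul_pow, sqrt3_sq] at h
  exact h

theorem X_ge3 {t : ℝ} (ht0 : 0 ≤ t) (ht : t ≤ 1 / 2) :
    3 * t ^ 2 * (1 - t ^ 2) ≤ 2 - 2 * Real.cos (√3 * t) := by
  have s3 := sqrt3_lt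
  have s3p : 0 < √(3:ℝ) := by positivity
  have h1 : |√3 * t| ≤ 1 := by
    rw [abs_of_nonneg (by positivity)]
    nlinarith
  have h := X_ge h1
  have e2 : (√3 * t) ^ 2 = 3 * t ^ 2 := by rw [mul_pow, sqrt3_sq]
  have e4 : (√3 * t) ^ 4 = 9 * t ^ 4 := by
    have : (√3 * t) ^ 4 = ((√3 * t) ^ 2) ^ 2 := by ring
    rw [this, e2]; ring
  rw [e2, e4] at h
  have : 0 ≤ t ^ 4 := by positivity
  nlinarith

theorem norm_mk (x y : ℝ) : ‖(⟨x, y⟩ : ℂ)‖ ^ 2 = x ^ 2 + y ^ 2 := by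
  rw [← Complex.normSq_eq_norm_sq, Complex.normSq_apply]; simp only; ring

theorem norm_mk' (x y : ℝ) : ‖(⟨x, y⟩ : ℂ)‖ = √(x ^ 2 + y ^ 2) := by
  rw [← norm_mk, Real.sqrt_sq (norm_nonneg _)]

theorem norm_mk_lt {x y r : ℝ} (hr : 0 < r) : ‖(⟨x, y⟩ : ℂ)‖ < r ↔ x ^ 2 + y ^ 2 < r ^ 2 := by
  rw [norm_mk', Real.sqrt_lt' hr]

theorem norm_mk_zero {t : ℝ} (ht : 0 < t) : ‖(⟨0, t⟩ : ℂ)‖ = t := by
  rw [norm_mk']
  have : (0:ℝ) ^ 2 + t ^ 2 = t ^ 2 := by ring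
  rw [this, Real.sqrt_sq ht.le]

namespace DensHyp

variable {φ : ℂ → ℝ} {m : ℝ → Measure ℝ} {C ρ : ℝ}

/-- The rows which are good. -/
theorem row_good (h : DensHyp φ m C ρ) : ∀ᵐ x : ℝ, |x| < ρ →
    (∀ᵐ τ ∂(m x), 0 ≤ τ ∧ τ < 1) ∧ IsFiniteMeasure (m x) := by
  filter_upwards [h.supp, h.fin] with x h1 h2 hx
  exact ⟨h1, ⟨lt_top_iff_ne_top.2 (h2 hx)⟩⟩

/-- One comparison along the axis. -/
theorem axis_step (h : DensHyp φ m C ρ) {s t t' : ℝ} (hs0 : 0 < s) (hs : s ≤ 1 / 128)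
    (ht : 0 < t) (htt : t ≤ t') (ht' : 8 * t' < ρ) (ht1 : 8 * t' ≤ 1) :
    Fz φ ⟨0, t⟩ ≤ Fz φ ⟨0, t'⟩ + 20000 * C * (s + t' ^ 2) := by
  have hC := h.C_nonneg
  have ht'0 : 0 < t' := lt_of_lt_of_le ht htt
  have n1 : ‖(⟨0, t⟩ : ℂ)‖ = t := norm_mk_zero ht
  have n2 : ‖(⟨0, t'⟩ : ℂ)‖ = t' := norm_mk_zero ht'0
  have a1 := h.transfer (z := ⟨0, t⟩) (t := s) ht hs0 hs (by rw [n1]; linarith)
    (by rw [n1]; linarith)
  have a2 := h.transfer (z := ⟨0, t'⟩) (t := s) ht'0 hs0 hs (by rw [n2]; linarith)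
    (by rw [n2]; linarith)
  rw [n1] at a1
  rw [n2] at a2
  simp only [sub_zero] at a1 a2
  obtain ⟨x', hx1, hx2, ⟨b1, b2⟩, b3⟩ := exists_Ioo ((a1.and a2).and h.row_good)
    (show (0:ℝ) < s * t by positivity)
  have hst : s * t ≤ s * t' := mul_le_mul_of_nonneg_left htt hs0.le
  have hst1 : s * t ≤ 1 / 128 * t := mul_le_mul_of_nonneg_right hs ht.le
  have c1 := b1 (by rw [abs_of_pos hx1]; exact hx2)
  have c2 := b2 (by rw [abs_of_pos hx1]; linarith)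
  obtain ⟨hsupp, hfin⟩ := b3 (by rw [abs_of_pos hx1]; linarith)
  have hpi := Real.pi_gt_d2
  have s3 := sqrt3_lt
  have s3p : 0 < √(3:ℝ) := by positivity
  have hratio : (2 - 2 * Real.cos (√3 * t)) * Psi m x' t ≤
      (2 - 2 * Real.cos (√3 * t')) * Psi m x' t' :=
    psi_ratio hsupp (by positivity) (mul_le_mul_of_nonneg_left htt s3p.le) (by nlinarith)
  have hP : 0 ≤ Psi m x' t := psi_nonneg hsupp
  have hP' : 0 ≤ Psi m x' t' := psi_nonneg hsupp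
  have x1 := mul_le_mul_of_nonneg_right (X_ge3 ht.le (by linarith)) hP
  have x2 := mul_le_mul_of_nonneg_right (X_le3 t') hP'
  have hb := h.Fz_bdd (z := ⟨0, t⟩) (by
    intro h0
    rw [h0] at n1; simp at n1; linarith) (by rw [n1]; linarith)
  rw [abs_le] at c1 c2
  set A := t ^ 2 * Psi m x' t with hA
  set A' := t' ^ 2 * Psi m x' t' with hA'
  have hA0 : 0 ≤ A := by positivity
  have d1 : A * (1 - t ^ 2) ≤ A' := by
    have : 3 * t ^ 2 * (1 - t ^ 2) * Psi m x' t ≤ 3 * t' ^ 2 * Psi m x' t' := by linarith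
    rw [hA, hA']
    nlinarith
  have ht2 : t ^ 2 ≤ t' ^ 2 := pow_le_pow_left₀ ht.le htt 2
  have ht21 : t ^ 2 ≤ 1 := pow_le_one₀ ht.le (by linarith)
  have hAb : A ≤ 8004 * C := by
    have e1 : s + t ^ 2 ≤ 2 := by linarith
    have : 4000 * C * (s + t ^ 2) ≤ 4000 * C * 2 := mul_le_mul_of_nonneg_left e1 (by positivity)
    linarith [c1.1]
  have d2 : A * t ^ 2 ≤ 8004 * C * t' ^ 2 :=
    mul_le_mul hAb ht2 (by positivity) (by positivity)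
  have e3 : 0 ≤ C * s := by positivity
  have e4 : 0 ≤ C * t' ^ 2 := by positivity
  have e5 : C * t ^ 2 ≤ C * t' ^ 2 := mul_le_mul_of_nonneg_left ht2 hC
  linarith [c1.2, c2.1]

/-- Almost monotonicity along the axis. -/
theorem axis_mono (h : DensHyp φ m C ρ) {t t' : ℝ}
    (ht : 0 < t) (htt : t ≤ t') (ht' : 8 * t' < ρ) (ht1 : 8 * t' ≤ 1) :
    Fz φ ⟨0, t⟩ ≤ Fz φ ⟨0, t'⟩ + 20000 * C * t' ^ 2 := by
  have hC := h.C_nonneg
  refine le_of_forall_pos_le_add fun ε hε => ?_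
  set s : ℝ := min (1 / 128) (ε / (20000 * (C + 1))) with hs
  have hs0 : 0 < s := lt_min (by norm_num) (by positivity)
  have h1 := h.axis_step hs0 (min_le_left _ _) ht htt ht' ht1
  have h2 : s ≤ ε / (20000 * (C + 1)) := min_le_right _ _
  rw [le_div_iff₀ (by positivity)] at h2
  have h3 : 20000 * C * s ≤ ε := by nlinarith
  linarith

/-- The axis limit. -/
theorem axis_lim (h : DensHyp φ m C ρ) :
    ∃ κ, 0 ≤ κ ∧ Tendsto (fun t : ℝ => Fz φ ⟨0, t⟩) (𝓝[>] 0) (𝓝 κ) := by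
  have hC := h.C_nonneg
  have hρ := h.rho_pos
  set K : ℝ := 20000 * C with hK
  have hK0 : 0 ≤ K := by positivity
  set r1 : ℝ := min (ρ / 16) (1 / 16) with hr1
  have hr1p : 0 < r1 := lt_min (by positivity) (by norm_num)
  have hr1a : r1 ≤ ρ / 16 := min_le_left _ _
  have hr1b : r1 ≤ 1 / 16 := min_le_right _ _
  set S : Set ℝ := (fun t : ℝ => Fz φ ⟨0, t⟩ + K * t ^ 2) '' Ioo 0 r1 with hS
  have hne : S.Nonempty := ⟨_, ⟨r1 / 2, ⟨by positivity, by linarith⟩, rfl⟩⟩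
  have hbelow : ∀ b ∈ S, 0 ≤ b := by
    rintro b ⟨t, -, rfl⟩
    have := Fz_nonneg φ ⟨0, t⟩
    simp only
    positivity
  have hbdd : BddBelow S := ⟨0, fun b hb => hbelow b hb⟩
  refine ⟨sInf S, le_csInf hne hbelow, ?_⟩
  rw [Metric.tendsto_nhdsWithin_nhds]
  intro ε hε
  obtain ⟨b, ⟨t', ⟨ht'0, ht'r⟩, rfl⟩, hb⟩ := exists_lt_of_csInf_lt hne
    (show sInf S < sInf S + ε by linarith)
  simp only at hb
  refine ⟨min t' (ε / (K + 1)), lt_min ht'0 (by positivity), ?_⟩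
  intro t ht htd
  rw [mem_Ioi] at ht
  rw [Real.dist_eq, sub_zero, abs_of_pos ht] at htd
  have ht1 : t < t' := lt_of_lt_of_le htd (min_le_left _ _)
  have ht2 : t < ε / (K + 1) := lt_of_lt_of_le htd (min_le_right _ _)
  rw [lt_div_iff₀ (by positivity)] at ht2
  have u1 := h.axis_mono ht ht1.le (by linarith) (by linarith)
  have u2 : sInf S ≤ Fz φ ⟨0, t⟩ + K * t ^ 2 :=
    csInf_le hbdd ⟨t, ⟨ht, by linarith⟩, rfl⟩
  have u3 : K * t ^ 2 < ε := by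
    have : K * t ^ 2 ≤ K * t := mul_le_mul_of_nonneg_left (by nlinarith) hK0
    nlinarith
  rw [Real.dist_eq, abs_lt]
  constructor
  · linarith
  · linarith

end DensHyp

end Vale.Agent.P153.Iso
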