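import Mathlib
import Vale.Agent.P153.Iso.Axis
import Vale.Agent.P153.Iso.Asym

/-!
# B5, part 8: the Stieltjes property
-/

open MeasureTheory Filter Topology Set Metric
open scoped ENNReal BigOperators

namespace Vale.Agent.P153.Iso

theorem exists_lower (X : Finset ℝ) (hX : ∀ x ∈ X, 0 < x) :
    ∃ c, 0 < c ∧ c ≤ 1 ∧ ∀ x ∈ X, c ≤ √x := by
  classical
  induction X using Finset.induction_on with
  | empty => exact ⟨1, one_pos, le_rfl, by simp⟩
  | insert a X ha ih =>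
    obtain ⟨c, hc, hc1, h⟩ := ih (fun x hx => hX x (Finset.mem_insert_of_mem hx))
    have ha0 : 0 < √a := Real.sqrt_pos.2 (hX a (Finset.mem_insert_self a X))
    refine ⟨min c (√a), lt_min hc ha0, (min_le_left _ _).trans hc1, fun x hx => ?_⟩
    rcases Finset.mem_insert.1 hx with rfl | hx'
    · exact min_le_right _ _
    · exact (min_le_left _ _).trans (h x hx')

theorem exists_upper (X : Finset ℝ) : ∃ M, 1 ≤ M ∧ ∀ x ∈ X, 1 + x ≤ M := by
  classical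
  induction X using Finset.induction_on with
  | empty => exact ⟨1, le_rfl, by simp⟩
  | insert a X ha ih =>
    obtain ⟨M, hM, h⟩ := ih
    refine ⟨max M (1 + a), hM.trans (le_max_left _ _), fun x hx => ?_⟩
    rcases Finset.mem_insert.1 hx with rfl | hx'
    · exact le_max_right _ _
    · exact (h x hx').trans (le_max_left _ _)

/-- Comparison of the Stieltjes kernels at `Y = X(θ)` and `3 r² x`. -/
theorem kernel_cmp {t r x Y q : ℝ} (ht0 : 0 < t) (ht1 : t < 1) (hr : 0 < r) (hx : 0 < x)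
    (hq0 : 0 ≤ q) (hY1 : Y ≤ 3 * (r ^ 2 * x)) (hY2 : 3 * (r ^ 2 * x) * (1 - q) ≤ Y)
    (hY0 : 0 ≤ Y) :
    0 ≤ r ^ 2 * ((1 / t) / ((1 - t) ^ 2 / t + Y)) -
        (1 / (3 * t)) / ((1 - t) ^ 2 / (3 * r ^ 2 * t) + x) ∧
    r ^ 2 * ((1 / t) / ((1 - t) ^ 2 / t + Y)) -
        (1 / (3 * t)) / ((1 - t) ^ 2 / (3 * r ^ 2 * t) + x) ≤
      q * (r ^ 2 * ((1 / t) / ((1 - t) ^ 2 / t + Y))) := by
  have h1t : 0 < 1 - t := by linarith
  set Z : ℝ := (1 - t) ^ 2 / t with hZ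
  have hZ0 : 0 < Z := by positivity
  have hr2 : 0 < r ^ 2 := by positivity
  have e1 : (1 / (3 * t)) / ((1 - t) ^ 2 / (3 * r ^ 2 * t) + x) =
      r ^ 2 * ((1 / t) / (Z + 3 * (r ^ 2 * x))) := by
    rw [hZ]
    have h1 : 0 < (1 - t) ^ 2 / (3 * r ^ 2 * t) + x := by positivity
    have h2 : 0 < (1 - t) ^ 2 / t + 3 * (r ^ 2 * x) := by positivity
    field_simp
  rw [e1]
  have hA : 0 < Z + Y := by linarith
  have hB : 0 < Z + 3 * (r ^ 2 * x) := by positivity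
  constructor
  · rw [← mul_sub]
    apply mul_nonneg hr2.le
    rw [sub_nonneg]
    exact div_le_div_of_nonneg_left (by positivity) hA (by linarith)
  · have h3 : (1 - q) * ((1 / t) / (Z + Y)) ≤ (1 / t) / (Z + 3 * (r ^ 2 * x)) := by
      rw [mul_div_assoc', div_le_div_iff₀ hA hB]
      have : (1 - q) * (Z + 3 * (r ^ 2 * x)) ≤ Z + Y := by nlinarith
      calc (1 - q) * (1 / t) * (Z + 3 * (r ^ 2 * x)) = (1 / t) * ((1 - q) * (Z + 3 * (r ^ 2 * x))) := by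
            ring
        _ ≤ (1 / t) * (Z + Y) := mul_le_mul_of_nonneg_left this (by positivity)
    have h4 := mul_le_mul_of_nonneg_left h3 hr2.le
    linarith

/-- Final estimate. -/
theorem st_alg {C s N M r2 x F P S St e ε : ℝ} (hC : 0 ≤ C) (hx : 0 < x)
    (hr2 : 0 ≤ r2) (hN : N = r2 * (1 + x)) (hNM : N ≤ r2 * M)
    (h1 : |F - N * P| ≤ 4000 * C * (s + N))
    (hP0 : 0 ≤ P) (hF : F ≤ 4 * C) (hsN : s + N ≤ 2)
    (h2 : |r2 * P - St| ≤ e) (he : e ≤ 1)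
    (h3 : 0 ≤ St - S) (h4 : St - S ≤ (r2 * M) * St)
    (hM : 0 ≤ M)
    (hfin : 4000 * C * (s + r2 * M) + e + r2 * M * (8004 * C + 1) ≤ ε) :
    |F / (1 + x) - S| ≤ ε := by
  have hx1 : 0 < 1 + x := by linarith
  have h5 : |F / (1 + x) - r2 * P| ≤ 4000 * C * (s + N) := by
    have e1 : F / (1 + x) - r2 * P = (F - N * P) / (1 + x) := by
      rw [hN]; field_simp
    rw [e1, abs_div, abs_of_pos hx1, div_le_iff₀ hx1]
    have h0 : 0 ≤ 4000 * C * (s + N) := (abs_nonneg _).trans h1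
    nlinarith
  have h6 : r2 * P ≤ N * P := by
    apply mul_le_mul_of_nonneg_right _ hP0
    rw [hN]; nlinarith
  have h7 : 4000 * C * (s + N) ≤ 4000 * C * 2 := mul_le_mul_of_nonneg_left hsN (by positivity)
  have h8 : 4000 * C * (s + N) ≤ 4000 * C * (s + r2 * M) :=
    mul_le_mul_of_nonneg_left (by linarith) (by positivity)
  rw [abs_le] at h1 h2 h5 ⊢
  have h9 : St ≤ 8004 * C + 1 := by linarith [h1.1, h2.1]
  have h10 : (r2 * M) * St ≤ r2 * M * (8004 * C + 1) :=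
    mul_le_mul_of_nonneg_left h9 (by positivity)
  have h11 : 0 ≤ r2 * M * (8004 * C + 1) := by positivity
  constructor
  · linarith [h5.1, h2.1]
  · linarith [h5.2, h2.2]

theorem st_row {μ : Measure ℝ} {C r x s M ε e F : ℝ} {n : ℕ} {w t : Fin n → ℝ}
    (hsupp : ∀ᵐ τ ∂μ, 0 ≤ τ ∧ τ < 1)
    (hC : 0 ≤ C) (hx0 : 0 < x) (hr : 0 < r) (hs0 : 0 < s) (hs1 : s ≤ 1 / 128)
    (hMx : 1 + x ≤ M) (hrM : 16 * (r * M) < 1) (g2 : r * √x ≤ r * M) (hε : 0 < ε)
    (he1 : e ≤ 1) (he2 : e ≤ ε / 4) (hs2 : s * (4 * 4000 * (C + 1)) ≤ ε)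
    (hr3 : r * (4 * M * (20000 * (C + 1))) ≤ ε)
    (hw : ∀ i, 0 ≤ w i) (ht : ∀ i, 0 < t i ∧ t i < 1)
    (hap : |(∫ τ, 1 / den τ (√3 * (r * √x)) ∂μ) -
      ∑ i, w i * (1 / den (t i) (√3 * (r * √x)))| ≤ e / r ^ 2)
    (t1 : |F - r ^ 2 * (1 + x) * (∫ τ, 1 / den τ (√3 * (r * √x)) ∂μ)| ≤
      4000 * C * (s + r ^ 2 * (1 + x)))
    (hfb : F ≤ 4 * C) :
    |F / (1 + x) - ∑ i, w i * (1 / (3 * t i)) / ((1 - t i) ^ 2 / (3 * r ^ 2 * t i) + x)| ≤ ε := by
  have hM0 : 0 < M := by linarith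
  have g1 : 0 < r * √x := mul_pos hr (Real.sqrt_pos.2 hx0)
  have hr1 : r ≤ 1 := by
    have : r * 1 ≤ r * M := mul_le_mul_of_nonneg_left (by linarith) hr.le
    linarith
  have hr21 : r ^ 2 ≤ r := by nlinarith
  have hr2M : r ^ 2 * M ≤ r * M := mul_le_mul_of_nonneg_right hr21 hM0.le
  have hNM : r ^ 2 * (1 + x) ≤ r ^ 2 * M := mul_le_mul_of_nonneg_left hMx (by positivity)
  have hq1 : (r * √x) ^ 2 = r ^ 2 * x := by rw [mul_pow, Real.sq_sqrt hx0.le]
  have hrsx : r * √x ≤ 1 / 2 := by linarith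
  have hY1 : 2 - 2 * Real.cos (√3 * (r * √x)) ≤ 3 * (r ^ 2 * x) := by
    have := X_le3 (r * √x)
    rwa [hq1] at this
  have hY2 : 3 * (r ^ 2 * x) * (1 - r ^ 2 * M) ≤ 2 - 2 * Real.cos (√3 * (r * √x)) := by
    have := X_ge3 g1.le hrsx
    rw [hq1] at this
    have h5 : r ^ 2 * x ≤ r ^ 2 * M := mul_le_mul_of_nonneg_left (by linarith) (by positivity)
    have h6 : 0 ≤ 3 * (r ^ 2 * x) := by positivity
    have h7 : 3 * (r ^ 2 * x) * (r ^ 2 * x) ≤ 3 * (r ^ 2 * x) * (r ^ 2 * M) :=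
      mul_le_mul_of_nonneg_left h5 h6
    linarith
  have hY0 : 0 ≤ 2 - 2 * Real.cos (√3 * (r * √x)) := by
    linarith [Real.cos_le_one (√3 * (r * √x))]
  have hker := fun i => kernel_cmp (ht i).1 (ht i).2 hr hx0 (q := r ^ 2 * M) (by positivity)
    hY1 hY2 hY0
  have hden : ∀ i, 1 / den (t i) (√3 * (r * √x)) =
      (1 / t i) / ((1 - t i) ^ 2 / t i + (2 - 2 * Real.cos (√3 * (r * √x)))) :=
    fun i => inv_den_eq (ht i).1 (ht i).2
  refine st_alg (s := s) (N := r ^ 2 * (1 + x)) (M := M) (r2 := r ^ 2) (x := x)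
    (P := ∫ τ, 1 / den τ (√3 * (r * √x)) ∂μ)
    (St := ∑ i, w i * (r ^ 2 * (1 / den (t i) (√3 * (r * √x))))) (e := e)
    hC hx0 (by positivity) rfl hNM t1 (psi_nonneg hsupp) hfb (by linarith) ?_ he1 ?_ ?_
    hM0.le ?_
  · have e1 : r ^ 2 * (∫ τ, 1 / den τ (√3 * (r * √x)) ∂μ) -
          ∑ i, w i * (r ^ 2 * (1 / den (t i) (√3 * (r * √x)))) =
        r ^ 2 * ((∫ τ, 1 / den τ (√3 * (r * √x)) ∂μ) -
          ∑ i, w i * (1 / den (t i) (√3 * (r * √x)))) := by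
      rw [mul_sub, Finset.mul_sum]
      congr 1
      refine Finset.sum_congr rfl fun i _ => ?_
      ring
    rw [e1, abs_mul, abs_of_pos (by positivity : 0 < r ^ 2)]
    have := mul_le_mul_of_nonneg_left hap (by positivity : 0 ≤ r ^ 2)
    refine this.trans (le_of_eq ?_)
    field_simp
  · rw [← Finset.sum_sub_distrib]
    refine Finset.sum_nonneg fun i _ => ?_
    rw [hden i, mul_div_assoc, ← mul_sub]
    exact mul_nonneg (hw i) (hker i).1
  · rw [← Finset.sum_sub_distrib, Finset.mul_sum]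
    refine Finset.sum_le_sum fun i _ => ?_
    rw [hden i, mul_div_assoc, ← mul_sub]
    have := mul_le_mul_of_nonneg_left (hker i).2 (hw i)
    refine this.trans (le_of_eq ?_)
    ring
  · have f1 : 4000 * C * s ≤ ε / 4 := by
      have : 0 ≤ s := hs0.le
      linarith
    have f2 : r ^ 2 * M * (12004 * C + 1) ≤ ε / 4 := by
      calc r ^ 2 * M * (12004 * C + 1) ≤ (r * M) * (12004 * C + 1) :=
            mul_le_mul_of_nonneg_right hr2M (by positivity)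
        _ ≤ (r * M) * (20000 * (C + 1)) :=
            mul_le_mul_of_nonneg_left (by linarith) (by positivity)
        _ ≤ ε / 4 := by linarith
    have f3 : 4000 * C * (s + r ^ 2 * M) + e + r ^ 2 * M * (8004 * C + 1) =
      4000 * C * s + e + r ^ 2 * M * (12004 * C + 1) := by ring
    rw [f3]; linarith

namespace DensHyp

variable {φ : ℂ → ℝ} {m : ℝ → Measure ℝ} {C ρ : ℝ}

theorem transfer_all (h : DensHyp φ m C ρ) {r s : ℝ} (X : Finset ℝ) (hX : ∀ x ∈ X, 0 < x)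
    (hr : 0 < r) (hs0 : 0 < s) (hs : s ≤ 1 / 128)
    (hb : ∀ x ∈ X, 8 * ‖(⟨r, r * √x⟩ : ℂ)‖ < ρ ∧ 8 * ‖(⟨r, r * √x⟩ : ℂ)‖ ≤ 1) :
    ∀ᵐ x' : ℝ, ∀ x ∈ X, |x' - r| < s * (r * √x) →
      |Fz φ ⟨r, r * √x⟩ - ‖(⟨r, r * √x⟩ : ℂ)‖ ^ 2 * Psi m x' (r * √x)| ≤
        4000 * C * (s + ‖(⟨r, r * √x⟩ : ℂ)‖ ^ 2) := by
  rw [Filter.eventually_all_finset]
  intro x hx
  have hx0 := hX x hx
  have : 0 < √x := Real.sqrt_pos.2 hx0
  exact h.transfer (z := ⟨r, r * √x⟩) (t := s) (by simp only; positivity) hs0 hs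
    (hb x hx).1 (hb x hx).2

theorem st (h : DensHyp φ m C ρ) (X : Finset ℝ) (hX : ∀ x ∈ X, 0 < x) (ε : ℝ) (hε : 0 < ε) :
    ∃ r0, 0 < r0 ∧ ∀ r, 0 < r → r < r0 →
    ∃ (n : ℕ) (nu z : Fin n → ℝ), (∀ i, 0 ≤ nu i) ∧ (∀ i, 0 ≤ z i) ∧
      ∀ x ∈ X, |Fz φ ⟨r, r * √x⟩ / (1 + x) - ∑ i, nu i / (z i + x)| ≤ ε := by
  classical
  have hC := h.C_nonneg
  have hρ := h.rho_pos
  obtain ⟨c, hc, hc1, hcX⟩ := exists_lower X hX
  obtain ⟨M, hM, hMX⟩ := exists_upper X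
  set s : ℝ := min (1 / 128) (ε / (4 * 4000 * (C + 1))) with hs
  have hs0 : 0 < s := lt_min (by norm_num) (by positivity)
  have hs1 : s ≤ 1 / 128 := min_le_left _ _
  have hs2 : s ≤ ε / (4 * 4000 * (C + 1)) := min_le_right _ _
  rw [le_div_iff₀ (by positivity)] at hs2
  set r0 : ℝ := min (min (1 / (16 * M)) (ρ / (16 * M))) (ε / (4 * M * (20000 * (C + 1)))) with hr0
  have hM0 : 0 < M := by linarith
  have hr0p : 0 < r0 := lt_min (lt_min (by positivity) (by positivity)) (by positivity)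
  refine ⟨r0, hr0p, fun r hr hrr => ?_⟩
  have hr1 : r < 1 / (16 * M) := lt_of_lt_of_le hrr ((min_le_left _ _).trans (min_le_left _ _))
  have hr2 : r < ρ / (16 * M) := lt_of_lt_of_le hrr ((min_le_left _ _).trans (min_le_right _ _))
  have hr3 : r < ε / (4 * M * (20000 * (C + 1))) := lt_of_lt_of_le hrr (min_le_right _ _)
  rw [lt_div_iff₀ (by positivity)] at hr1 hr2 hr3
  have hrM : 16 * (r * M) < 1 := by linarith
  have hrMρ : 16 * (r * M) < ρ := by linarith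
  have hr16 : 16 * r < 1 := by nlinarith
  have hnorm : ∀ x ∈ X, ‖(⟨r, r * √x⟩ : ℂ)‖ ^ 2 = r ^ 2 * (1 + x) := by
    intro x hx
    rw [norm_mk, mul_pow, Real.sq_sqrt (hX x hx).le]; ring
  have hnormM : ∀ x ∈ X, ‖(⟨r, r * √x⟩ : ℂ)‖ ≤ r * M := by
    intro x hx
    apply le_of_sq_le_sq _ (by positivity)
    rw [hnorm x hx, mul_pow]
    apply mul_le_mul_of_nonneg_left _ (by positivity)
    have := hMX x hx
    nlinarith
  have hb : ∀ x ∈ X, 8 * ‖(⟨r, r * √x⟩ : ℂ)‖ < ρ ∧ 8 * ‖(⟨r, r * √x⟩ : ℂ)‖ ≤ 1 := by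
    intro x hx
    have := hnormM x hx
    constructor
    · have h0 : 0 < r * M := by positivity
      linarith
    · linarith
  obtain ⟨x', hx1, hx2, h1, h2⟩ := exists_Ioo ((h.transfer_all X hX hr hs0 hs1 hb).and h.row_good)
    (show r < r + s * (r * c) by
      have : 0 < s * (r * c) := by positivity
      linarith)
  -- the point `x'` lies in `(r, 2 r)`
  have hsc : s * (r * c) ≤ r := by
    have a1 : r * c ≤ r := by nlinarith
    have a2 : 0 < r * c := by positivity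
    nlinarith
  have hrρ : 16 * r < ρ := by nlinarith
  obtain ⟨hsupp, hfin⟩ := h2 (by rw [abs_of_pos (by linarith)]; linarith)
  have s3 := sqrt3_lt
  have s3p : 0 < √(3:ℝ) := by positivity
  have hpi := Real.pi_gt_d2
  have hsx : ∀ x ∈ X, 0 < r * √x ∧ r * √x ≤ r * M := by
    intro x hx
    have h0 : 0 < √x := Real.sqrt_pos.2 (hX x hx)
    refine ⟨by positivity, ?_⟩
    have := Complex.abs_im_le_norm (⟨r, r * √x⟩ : ℂ)
    simp only at this
    exact (le_abs_self _).trans (this.trans (hnormM x hx))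
  have hT : ∀ θ ∈ X.image (fun x => √3 * (r * √x)), Real.sin θ ≠ 0 := by
    intro θ hθ
    rw [Finset.mem_image] at hθ
    obtain ⟨x, hx, rfl⟩ := hθ
    obtain ⟨g1, g2⟩ := hsx x hx
    apply ne_of_gt
    apply Real.sin_pos_of_pos_of_lt_pi (by positivity)
    nlinarith
  set e : ℝ := min 1 (ε / 4) with he
  have he0 : 0 < e := lt_min one_pos (by positivity)
  have he1 : e ≤ 1 := min_le_left _ _
  have he2 : e ≤ ε / 4 := min_le_right _ _
  obtain ⟨n, w, t, hw, ht, happ⟩ := riemann hsupp (X.image (fun x => √3 * (r * √x))) hT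
    (ε := e / r ^ 2) (by positivity)
  refine ⟨n, fun i => w i * (1 / (3 * t i)), fun i => (1 - t i) ^ 2 / (3 * r ^ 2 * t i), ?_, ?_, ?_⟩
  · intro i
    have := (ht i).1
    have := hw i
    positivity
  · intro i
    have := (ht i).1
    positivity
  · intro x hx
    have hx0 := hX x hx
    have hn := hnorm x hx
    have t1 := h1 x hx (by
      rw [abs_of_pos (by linarith)]
      have : s * (r * c) ≤ s * (r * √x) :=
        mul_le_mul_of_nonneg_left (mul_le_mul_of_nonneg_left (hcX x hx) hr.le) hs0.le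
      linarith)
    rw [hn] at t1
    have hz0 : (⟨r, r * √x⟩ : ℂ) ≠ 0 := by
      intro h0
      have := congrArg Complex.re h0
      simp only [Complex.zero_re] at this
      linarith
    exact st_row hsupp hC hx0 hr hs0 hs1 (hMX x hx) hrM (hsx x hx).2 hε he1 he2 hs2 hr3.le
      hw ht (happ _ (Finset.mem_image_of_mem _ hx)) t1
      (h.Fz_bdd hz0 (by linarith [(hb x hx).1, norm_nonneg (⟨r, r * √x⟩ : ℂ)]))

end DensHyp

end Vale.Agent.P153.Iso
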