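import Mathlib
import Vale.Agent.P153.Iso.Stj

/-!
# B5, part 9: the theorem
-/

open MeasureTheory Filter Topology Set Metric
open scoped ENNReal BigOperators

namespace Vale.Agent.P153.Iso

namespace DensHyp

variable {φ : ℂ → ℝ} {m : ℝ → Measure ℝ} {C ρ : ℝ}

theorem ahyp (h : DensHyp φ m C ρ) : ∃ κ, AHyp (fun x y => Fz φ ⟨x, y⟩) κ (4 * C)
    (min (ρ / 16) (1 / 16)) := by
  have hC := h.C_nonneg
  have hρ := h.rho_pos
  obtain ⟨κ, -, hκ⟩ := h.axis_lim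
  set r1 : ℝ := min (ρ / 16) (1 / 16) with hr1
  have hr1p : 0 < r1 := lt_min (by positivity) (by norm_num)
  have hr1a : r1 ≤ ρ / 16 := min_le_left _ _
  have hr1b : r1 ≤ 1 / 16 := min_le_right _ _
  have hne : ∀ x y : ℝ, 0 < x ^ 2 + y ^ 2 → (⟨x, y⟩ : ℂ) ≠ 0 := by
    intro x y h0 h1
    have := norm_mk x y
    rw [h1] at this
    simp at this
    linarith
  refine ⟨κ, hr1p, fun x y _ _ => Fz_nonneg _ _, ?_, ⟨?_, ?_⟩, ?_, hκ, ?_⟩
  · intro x y h0 h1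
    have := (norm_mk_lt hr1p).2 h1
    exact h.Fz_bdd (hne x y h0) (by linarith)
  · intro x y _ _
    have e : (⟨x / 2 - √3 / 2 * y, √3 / 2 * x + y / 2⟩ : ℂ) = om * ⟨x, y⟩ := by
      apply Complex.ext
      · rw [om_mul_re]
      · rw [om_mul_im]
    rw [e]; unfold Fz
    rw [h.U_om, norm_om_mul]
  · intro x y _ _
    have e : (⟨x, -y⟩ : ℂ) = (starRingEnd ℂ) ⟨x, y⟩ := by
      apply Complex.ext <;> simp
    rw [e]; unfold Fz
    rw [h.U_conj, Complex.norm_conj]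
  · intro ε hε
    set δ : ℝ := min (1 / 64) (ε / (4000 * (C + 1))) with hδ
    have hδ0 : 0 < δ := lt_min (by norm_num) (by positivity)
    have hδ1 : δ ≤ 1 / 64 := min_le_left _ _
    have hδ2 : δ ≤ ε / (4000 * (C + 1)) := min_le_right _ _
    rw [le_div_iff₀ (by positivity)] at hδ2
    set r0 : ℝ := min r1 (ε / (4000 * (C + 1))) with hr0
    have hr00 : 0 < r0 := lt_min hr1p (by positivity)
    have hr01 : r0 ≤ r1 := min_le_left _ _
    have hr02 : r0 ≤ ε / (4000 * (C + 1)) := min_le_right _ _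
    rw [le_div_iff₀ (by positivity)] at hr02
    refine ⟨δ, hδ0, r0, hr00, fun x y x' y' h0 h1 h2 => ?_⟩
    set z : ℂ := ⟨x, y⟩ with hz
    set w : ℂ := ⟨x', y'⟩ with hw
    have hz0 := hne x y h0
    have hn : 0 < ‖z‖ := norm_pos_iff.2 hz0
    have hzr : ‖z‖ < r0 := (norm_mk_lt hr00).2 h1
    have hwz : ‖w - z‖ ≤ δ * ‖z‖ := by
      apply le_of_sq_le_sq _ (by positivity)
      have e : w - z = ⟨x' - x, y' - y⟩ := by
        apply Complex.ext <;> simp [hz, hw]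
      rw [mul_pow, e, norm_mk, hz, norm_mk]
      linarith [h2]
    have hδn : δ * ‖z‖ ≤ 1 / 64 * ‖z‖ := mul_le_mul_of_nonneg_right hδ1 hn.le
    have hw1 : ‖w‖ ≤ 65 / 64 * ‖z‖ := by
      calc ‖w‖ = ‖z + (w - z)‖ := by congr 1; ring
        _ ≤ ‖z‖ + ‖w - z‖ := norm_add_le _ _
        _ ≤ _ := by linarith
    have hw2 : 63 / 64 * ‖z‖ ≤ ‖w‖ := by
      have : ‖z‖ ≤ ‖w‖ + ‖w - z‖ := by
        calc ‖z‖ = ‖w - (w - z)‖ := by congr 1; ring
          _ ≤ _ := norm_sub_le _ _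
      linarith
    have hwp : 0 < ‖w‖ := lt_of_lt_of_le (by positivity) hw2
    have k1 := h.Fz_le (z := z) (w := w) hz0 (by linarith) (by linarith) (by linarith)
    have k2 := h.Fz_le (z := w) (w := z) (norm_pos_iff.1 hwp) (by linarith) (by linarith)
      (by rw [norm_sub_rev]; linarith)
    have q1 : ‖w - z‖ / ‖z‖ ≤ δ := by rw [div_le_iff₀ hn]; exact hwz
    have q2 : ‖z - w‖ / ‖w‖ ≤ 2 * δ := by
      rw [norm_sub_rev, div_le_iff₀ hwp]
      have := mul_le_mul_of_nonneg_left hw2 hδ0.le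
      have h6 : 0 ≤ δ * ‖z‖ := by positivity
      linarith
    have q3 : ‖z‖ ^ 2 ≤ r0 := by
      have : ‖z‖ ^ 2 ≤ ‖z‖ := by nlinarith
      linarith
    have q4 : ‖w‖ ^ 2 ≤ 2 * r0 := by
      have := pow_le_pow_left₀ hwp.le hw1 2
      rw [mul_pow] at this
      have h5 : 0 ≤ ‖z‖ ^ 2 := by positivity
      linarith
    have p1 : 1000 * C * (‖w - z‖ / ‖z‖ + ‖z‖ ^ 2) ≤ 1000 * C * (2 * δ + 2 * r0) :=
      mul_le_mul_of_nonneg_left (by linarith) (by positivity)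
    have p2 : 1000 * C * (‖z - w‖ / ‖w‖ + ‖w‖ ^ 2) ≤ 1000 * C * (2 * δ + 2 * r0) :=
      mul_le_mul_of_nonneg_left (by linarith) (by positivity)
    have p3 : 1000 * C * (2 * δ + 2 * r0) ≤ ε := by
      have : 0 ≤ C * δ := by positivity
      have : 0 ≤ C * r0 := by positivity
      linarith
    rw [abs_le]
    constructor <;> linarith
  · intro X hX ε hε
    exact h.st X hX ε hε

/-- Isotropy of the upper density. -/
theorem iso_U (h : DensHyp φ m C ρ) : ∃ κ, 0 ≤ κ ∧ ∀ ε, 0 < ε → ∃ r0, 0 < r0 ∧ ∀ z : ℂ, z ≠ 0 →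
    ‖z‖ < r0 → |Fz φ z - κ| ≤ ε := by
  obtain ⟨κ, hκ⟩ := h.ahyp
  refine ⟨κ, hκ.kappa_nonneg, fun ε hε => ?_⟩
  obtain ⟨r0, hr0, hr⟩ := hκ.isotropy ε hε
  refine ⟨r0, hr0, fun z hz hzr => ?_⟩
  have h1 := hr z.re z.im (by
    have := norm_mk z.re z.im
    have hn : 0 < ‖z‖ := norm_pos_iff.2 hz
    rw [← this]
    positivity) ((norm_mk_lt hr0).1 hzr)
  exact h1

theorem isoOut (h : DensHyp φ m C ρ) {κ : ℝ} (hκ : ∀ ε, 0 < ε → ∃ r0, 0 < r0 ∧ ∀ z : ℂ, z ≠ 0 →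
    ‖z‖ < r0 → |Fz φ z - κ| ≤ ε) : IsoOut φ κ := by
  intro ε hε
  obtain ⟨r0, hr0, hr⟩ := hκ ε hε
  refine ⟨min r0 ρ, lt_min hr0 h.rho_pos, ?_⟩
  have hloc : ∀ η, 0 < η → ∃ M : ℝ, ∀ᵐ w : ℂ, η < ‖w‖ → ‖w‖ < ρ → φ w ≤ M := by
    intro η hη
    refine ⟨C / η ^ 2, ?_⟩
    filter_upwards [h.bdd] with w hw h1 h2
    rw [le_div_iff₀ (by positivity)]
    have := hw h2
    have h3 : η ^ 2 ≤ ‖w‖ ^ 2 := pow_le_pow_left₀ hη.le h1.le 2
    nlinarith [h.nonneg w]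
  filter_upwards [ub_eq_ae h.meas h.nonneg hloc] with z hz hz0 hzr
  have h1 := hr z hz0 (lt_of_lt_of_le hzr (min_le_left _ _))
  have h2 := hz (norm_pos_iff.2 hz0) (lt_of_lt_of_le hzr (min_le_right _ _))
  unfold Fz U at h1
  rwa [h2, ENNReal.toReal_ofReal (h.nonneg z)] at h1

end DensHyp

theorem den_neg (τ θ : ℝ) : den τ (-θ) = den τ θ := by
  unfold den; rw [Real.cos_neg]

theorem psi_tendsto_zero {μ : Measure ℝ} [IsFiniteMeasure μ] (hs : ∀ᵐ τ ∂μ, 0 ≤ τ ∧ τ < 1)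
    {θ : ℕ → ℝ} (hθ0 : ∀ n, 0 < θ n) (hθ1 : ∀ n, θ n < Real.pi) (hanti : Antitone θ)
    (hlim : Tendsto θ atTop (𝓝 0)) {B : ℝ} (hB : ∀ n, ∫ τ, 1 / den τ (θ n) ∂μ ≤ B) :
    Tendsto (fun n => ∫ τ, 1 / den τ (θ n) ∂μ) atTop (𝓝 (∫ τ, 1 / den τ 0 ∂μ)) := by
  have hm : ∀ t : ℝ, Measurable fun τ => 1 / den τ t := by
    intro t; unfold den; fun_prop
  have hnn : ∀ t : ℝ, 0 ≤ᵐ[μ] fun τ => 1 / den τ t := by
    intro t
    filter_upwards [hs] with τ hτ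
    exact one_div_nonneg.2 (den_pos' hτ.1 hτ.2).le
  have hsin : ∀ n, Real.sin (θ n) ≠ 0 := fun n =>
    (Real.sin_pos_of_pos_of_lt_pi (hθ0 n) (hθ1 n)).ne'
  have h1 : Tendsto (fun n => ∫⁻ τ, ENNReal.ofReal (1 / den τ (θ n)) ∂μ) atTop
      (𝓝 (∫⁻ τ, ENNReal.ofReal (1 / den τ 0) ∂μ)) := by
    refine lintegral_tendsto_of_tendsto_of_monotone
      (fun n => (ENNReal.measurable_ofReal.comp (hm _)).aemeasurable) ?_ ?_
    · filter_upwards [hs] with τ hτ i j hij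
      apply ENNReal.ofReal_le_ofReal
      exact one_div_le_one_div_of_le (den_pos' hτ.1 hτ.2)
        (den_mono hτ.1 (hθ0 j).le (hanti hij) (hθ1 i).le)
    · filter_upwards [hs] with τ hτ
      refine (ENNReal.continuous_ofReal.tendsto _).comp ?_
      have hc : Continuous fun t => den τ t := by unfold den; fun_prop
      have h2 := (hc.tendsto 0).comp hlim
      exact tendsto_const_nhds.div h2 (den_pos' hτ.1 hτ.2).ne'
  have h2 : ∀ n, ∫⁻ τ, ENNReal.ofReal (1 / den τ (θ n)) ∂μ ≤ ENNReal.ofReal B := by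
    intro n
    rw [← ofReal_integral_eq_lintegral_ofReal (integrable_den (hsin n)) (hnn _)]
    exact ENNReal.ofReal_le_ofReal (hB n)
  have h3 : ∫⁻ τ, ENNReal.ofReal (1 / den τ 0) ∂μ ≤ ENNReal.ofReal B := le_of_tendsto' h1 h2
  have h4 := (ENNReal.tendsto_toReal (ne_top_of_le_ne_top ENNReal.ofReal_ne_top h3)).comp h1
  have e : ∀ t : ℝ, ∫ τ, 1 / den τ t ∂μ = (∫⁻ τ, ENNReal.ofReal (1 / den τ t) ∂μ).toReal :=
    fun t => integral_eq_lintegral_of_nonneg_ae (hnn t) (hm t).aestronglyMeasurable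
  rw [e 0]
  refine h4.congr fun n => ?_
  rw [e (θ n)]; rfl

/-- Sandwich algebra. -/
theorem sandwich {V V' κ ε s : ℝ} (_hV : 0 ≤ V) (hV' : 0 ≤ V') (hs0 : 0 ≤ s) (hs1 : s ≤ 1)
    (h1 : V ≤ (1 + s) ^ 2 * V') (h2 : V' ≤ (1 + s) ^ 2 * V) (h3 : |V' - κ| ≤ 2 * ε)
    (h4 : 12 * s * (κ + 2 * ε) ≤ ε) : |V - κ| ≤ 3 * ε := by
  rw [abs_le] at h3 ⊢
  have a1 : (1 + s) ^ 2 ≤ 1 + 3 * s := by nlinarith
  have b1 : V ≤ (1 + 3 * s) * V' := h1.trans (mul_le_mul_of_nonneg_right a1 hV')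
  have b2 : V' ≤ (1 + 3 * s) * V := h2.trans (mul_le_mul_of_nonneg_right a1 _hV)
  have b3 : V' ≤ κ + 2 * ε := by linarith [h3.2]
  have b4 : s * V' ≤ s * (κ + 2 * ε) := mul_le_mul_of_nonneg_left b3 hs0
  have b5 : V ≤ 4 * V' := by nlinarith
  have b6 : s * V ≤ s * (4 * V') := mul_le_mul_of_nonneg_left b5 hs0
  have b7 : 0 ≤ s * V' := mul_nonneg hs0 hV'
  constructor <;> linarith [h3.1, h3.2]

namespace DensHyp

variable {φ : ℂ → ℝ} {m : ℝ → Measure ℝ} {C ρ : ℝ}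

/-- For a.e. row the limit holds for every `y > 0`. -/
theorem row_lim (h : DensHyp φ m C ρ) {κ : ℝ} (hκ0 : 0 ≤ κ) (hiso : IsoOut φ κ) {ε : ℝ}
    (hε : 0 < ε) : ∃ η, 0 < η ∧ η ≤ 1 / 4 ∧ η ≤ ρ / 4 ∧ ∀ᵐ k : ℝ, |k| < η → ∀ y, 0 < y → y < η →
      |(k ^ 2 + y ^ 2) * Psi m k y - κ| ≤ 3 * ε := by
  have hC := h.C_nonneg
  have hρ := h.rho_pos
  obtain ⟨r0, hr0, hr⟩ := hiso ε hε
  set η : ℝ := min (min (1 / 4) (ρ / 4)) (min (r0 / 4) (ε / (9 * (C + 1)))) with hη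
  have hη0 : 0 < η := lt_min (lt_min (by norm_num) (by positivity))
    (lt_min (by positivity) (by positivity))
  have hη1 : η ≤ 1 / 4 := (min_le_left _ _).trans (min_le_left _ _)
  have hη2 : η ≤ ρ / 4 := (min_le_left _ _).trans (min_le_right _ _)
  have hη3 : η ≤ r0 / 4 := (min_le_right _ _).trans (min_le_left _ _)
  have hη4 : η ≤ ε / (9 * (C + 1)) := (min_le_right _ _).trans (min_le_right _ _)
  rw [le_div_iff₀ (by positivity)] at hη4
  refine ⟨η, hη0, hη1, hη2, ?_⟩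
  filter_upwards [h.row_good, ae_ae h.rep, ae_ae hr] with k g1 g2 g3 hk y hy hyη
  obtain ⟨hsupp, hfin⟩ := g1 (by linarith)
  set s : ℝ := min 1 (ε / (12 * (κ + 2 * ε))) with hs
  have hs0 : 0 < s := lt_min one_pos (by positivity)
  have hs1 : s ≤ 1 := min_le_left _ _
  have hs2 : s ≤ ε / (12 * (κ + 2 * ε)) := min_le_right _ _
  rw [le_div_iff₀ (by positivity)] at hs2
  obtain ⟨y', hy1, hy2, g4, g5⟩ := exists_Ioo (g2.and g3)
    (show y < y + s * y by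
      have : 0 < s * y := by positivity
      linarith)
  have hsy : s * y ≤ 1 * y := mul_le_mul_of_nonneg_right hs1 hy.le
  have hy' : 0 < y' := by linarith
  have hz0 : (⟨k, y'⟩ : ℂ) ≠ 0 := by
    intro h0
    have := congrArg Complex.im h0
    simp only [Complex.zero_im] at this
    linarith
  have hn : ‖(⟨k, y'⟩ : ℂ)‖ < 3 * η := by
    have := Complex.norm_le_abs_re_add_abs_im (⟨k, y'⟩ : ℂ)
    simp only at this
    rw [abs_of_pos hy'] at this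
    linarith
  have hrep := g4 (by linarith)
  have hφ := g5 hz0 (by linarith)
  rw [norm_mk] at hφ
  have hn2 : k ^ 2 + y' ^ 2 ≤ 9 * η := by
    rw [← norm_mk]
    have := pow_le_pow_left₀ (norm_nonneg _) hn.le 2
    nlinarith
  have hP : 0 ≤ Psi m k y := psi_nonneg hsupp
  have hP' : 0 ≤ Psi m k y' := psi_nonneg hsupp
  have hpi := Real.pi_gt_d2
  have s3 := sqrt3_lt
  have s3p : 0 < √(3:ℝ) := by positivity
  have hlt : √3 * y' < Real.pi := by nlinarith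
  have p1 : Psi m k y' ≤ Psi m k y := by
    unfold Psi
    exact psi_anti hsupp (by positivity) (mul_le_mul_of_nonneg_left hy1.le s3p.le) hlt
  have p2 : Psi m k y ≤ (y' / y) ^ 2 * Psi m k y' := by
    unfold Psi
    have := psi_le (μ := m k) (θ := √3 * y) (θ' := √3 * y') hsupp (by positivity)
      (mul_le_mul_of_nonneg_left hy1.le s3p.le) hlt
    have e : (√3 * y') / (√3 * y) = y' / y := by field_simp
    rwa [e] at this
  have hq : (y' / y) ^ 2 ≤ (1 + s) ^ 2 := by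
    apply pow_le_pow_left₀ (by positivity)
    rw [div_le_iff₀ hy]; linarith
  have hyy : y' ^ 2 ≤ (1 + s) ^ 2 * y ^ 2 := by
    rw [← mul_pow]; exact pow_le_pow_left₀ hy'.le (by linarith) 2
  have hs21 : 1 ≤ (1 + s) ^ 2 := by nlinarith
  have hy2' : y ^ 2 ≤ y' ^ 2 := pow_le_pow_left₀ hy.le hy1.le 2
  refine sandwich (V' := (k ^ 2 + y' ^ 2) * Psi m k y') (s := s) (by positivity) (by positivity)
    hs0.le hs1 ?_ ?_ ?_ (by linarith)
  · calc (k ^ 2 + y ^ 2) * Psi m k y ≤ (k ^ 2 + y' ^ 2) * ((1 + s) ^ 2 * Psi m k y') := by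
          apply mul_le_mul (by linarith) _ hP (by positivity)
          exact p2.trans (mul_le_mul_of_nonneg_right hq hP')
      _ = _ := by ring
  · calc (k ^ 2 + y' ^ 2) * Psi m k y' ≤ ((1 + s) ^ 2 * (k ^ 2 + y ^ 2)) * Psi m k y := by
          apply mul_le_mul _ p1 hP' (by positivity)
          have : 1 * k ^ 2 ≤ (1 + s) ^ 2 * k ^ 2 := mul_le_mul_of_nonneg_right hs21 (by positivity)
          linarith
      _ = _ := by ring
  · have e : (k ^ 2 + y' ^ 2) * Psi m k y' - κ = ((k ^ 2 + y' ^ 2) * φ ⟨k, y'⟩ - κ) -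
        (k ^ 2 + y' ^ 2) * (φ ⟨k, y'⟩ - Psi m k y') := by ring
    rw [e]
    refine (abs_sub _ _).trans ?_
    have : |(k ^ 2 + y' ^ 2) * (φ ⟨k, y'⟩ - Psi m k y')| ≤ 9 * η * C := by
      rw [abs_mul, abs_of_nonneg (by positivity : 0 ≤ k ^ 2 + y' ^ 2)]
      exact mul_le_mul hn2 hrep (abs_nonneg _) (by positivity)
    linarith

theorem spec_lim (h : DensHyp φ m C ρ) {κ : ℝ} (hκ0 : 0 ≤ κ) (hiso : IsoOut φ κ) {ε : ℝ}
    (hε : 0 < ε) : ∃ η, 0 < η ∧ ∀ᵐ k : ℝ, |k| < η → k ≠ 0 → ∀ θ : ℝ, |θ| < η →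
      |(3 * k ^ 2 + θ ^ 2) * (∫ τ, 1 / den τ θ ∂(m k)) - 3 * κ| ≤ ε := by
  have s3 := sqrt3_gt
  have s3p : 0 < √(3:ℝ) := by positivity
  have hpi := Real.pi_gt_d2
  obtain ⟨η, hη0, hη1, hη2, hη⟩ := h.row_lim hκ0 hiso (ε := ε / 9) (by positivity)
  refine ⟨η, hη0, ?_⟩
  filter_upwards [hη, h.row_good] with k hk hg hkη hk0
  obtain ⟨hsupp, hfin⟩ := hg (by have := h.rho_pos; linarith)
  have key : ∀ θ, 0 < θ → θ < η →
      |(3 * k ^ 2 + θ ^ 2) * (∫ τ, 1 / den τ θ ∂(m k)) - 3 * κ| ≤ ε := by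
    intro θ hθ0 hθ
    have h1 := hk hkη (θ / √3) (by positivity) (by
      rw [div_lt_iff₀ s3p]; nlinarith)
    have e1 : √3 * (θ / √3) = θ := by field_simp
    have e2 : (θ / √3) ^ 2 = θ ^ 2 / 3 := by rw [div_pow, sqrt3_sq]
    unfold Psi at h1
    rw [e1, e2] at h1
    have e3 : (3 * k ^ 2 + θ ^ 2) * (∫ τ, 1 / den τ θ ∂(m k)) - 3 * κ =
        3 * ((k ^ 2 + θ ^ 2 / 3) * (∫ τ, 1 / den τ θ ∂(m k)) - κ) := by ring
    rw [e3, abs_mul, abs_of_pos (by norm_num : (0:ℝ) < 3)]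
    linarith
  intro θ hθ
  rcases lt_trichotomy θ 0 with hneg | rfl | hpos
  · have := key (-θ) (by linarith) (by rw [abs_of_neg hneg] at hθ; exact hθ)
    simp only [den_neg, neg_sq] at this
    exact this
  · set t : ℕ → ℝ := fun n => η / (n + 2) with ht
    have ht0 : ∀ n, 0 < t n := fun n => by simp only [ht]; positivity
    have htη : ∀ n, t n < η := by
      intro n
      simp only [ht]
      rw [div_lt_iff₀ (by positivity)]
      have : (0:ℝ) ≤ n := Nat.cast_nonneg n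
      nlinarith
    have htanti : Antitone t := by
      intro i j hij
      simp only [ht]
      apply div_le_div_of_nonneg_left hη0.le (by positivity)
      have : (i:ℝ) ≤ j := by exact_mod_cast hij
      linarith
    have htlim : Tendsto t atTop (𝓝 0) := by
      apply Tendsto.div_atTop tendsto_const_nhds
      exact tendsto_atTop_add_const_right _ _ tendsto_natCast_atTop_atTop
    have hB : ∀ n, ∫ τ, 1 / den τ (t n) ∂(m k) ≤ (3 * κ + ε) / (3 * k ^ 2) := by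
      intro n
      have h1 := key (t n) (ht0 n) (htη n)
      rw [abs_le] at h1
      have hk2 : 0 < k ^ 2 := by positivity
      rw [le_div_iff₀ (by positivity)]
      have h2 : 0 ≤ ∫ τ, 1 / den τ (t n) ∂(m k) := psi_nonneg hsupp
      have h3 : 0 ≤ (t n) ^ 2 * ∫ τ, 1 / den τ (t n) ∂(m k) := by positivity
      linarith [h1.2]
    have hT := psi_tendsto_zero hsupp ht0 (fun n => by have := htη n; linarith) htanti htlim hB
    have hT2 : Tendsto (fun n => (3 * k ^ 2 + (t n) ^ 2) * (∫ τ, 1 / den τ (t n) ∂(m k)) - 3 * κ)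
        atTop (𝓝 ((3 * k ^ 2 + 0 ^ 2) * (∫ τ, 1 / den τ 0 ∂(m k)) - 3 * κ)) :=
      ((tendsto_const_nhds.add (htlim.pow 2)).mul hT).sub_const _
    exact le_of_tendsto' hT2.abs fun n => key (t n) (ht0 n) (htη n)
  · exact key θ hpos (by rwa [abs_of_pos hpos] at hθ)

end DensHyp

/-- **B5.** -/
theorem b5 : B5Statement := by
  intro φ m C ρ h
  obtain ⟨κ, hκ0, hκ⟩ := h.iso_U
  have hiso := h.isoOut hκ
  exact ⟨κ, hκ0, hiso, fun ε hε => h.spec_lim hκ0 hiso hε⟩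

end Vale.Agent.P153.Iso
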